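import Vale.Agent.P261Z.W.Pf

/-!
# P261Z, block W: a faithfully flat cover in which every monic polynomial has a root
-/

noncomputable section

open Polynomial

universe u

namespace P261

/-- every monic polynomial of positive degree has a root -/
def Aic (D : Type*) [CommRing D] : Prop :=
  ∀ f : Polynomial D, f.Monic → 0 < f.natDegree → ∃ x, f.IsRoot x

namespace AicA

/-- an algebra whose relations lift to faithfully flat algebras is faithfully flat -/
theorem ff_of_loc {C D : Type u} [CommRing C] [CommRing D] [Algebra C D]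
    (h : ∀ (l : ℕ) (f : Fin l → C) (x : Fin l → D) (c : C), ∑ i, f i • x i = algebraMap C D c →
      ∃ (B : Type u) (_ : CommRing B) (_ : Algebra C B) (φ : B →ₐ[C] D) (y : Fin l → B),
        Module.FaithfullyFlat C B ∧ (∀ i, φ (y i) = x i) ∧ ∑ i, f i • y i = algebraMap C B c) :
    Module.FaithfullyFlat C D := by
  refine (Module.FaithfullyFlat.iff_flat_and_proper_ideal C D).2
    ⟨Module.Flat.iff_forall_isTrivialRelation.2 fun {l f x} hx => ?_, fun I hI e => ?_⟩
  · obtain ⟨B, _, _, φ, y, h1, h2, h3⟩ := h l f x 0 (by rw [hx, map_zero])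
    obtain ⟨k, a, z, h4, h5⟩ :=
      Module.Flat.isTrivialRelation_of_sum_smul_eq_zero (f := f) (x := y) (h3.trans (map_zero _))
    exact ⟨k, a, fun j => φ (z j), fun i => by simp only [← h2, h4, map_sum, map_smul], h5⟩
  · have h1 : (1 : D) ∈ I.map (algebraMap C D) := by
      have := e.ge (Submodule.mem_top (x := (1 : D)))
      rwa [Ideal.smul_top_eq_map] at this
    obtain ⟨l, x, g, h2⟩ := Submodule.mem_span_set'.1 h1
    choose f h3 h4 using fun i => (g i).2
    obtain ⟨B, _, _, φ, y, h5, -, h6⟩ := h l f x 1 (by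
      rw [map_one, ← h2]
      exact Finset.sum_congr rfl fun i _ => by rw [Algebra.smul_def, h4, smul_eq_mul, mul_comm])
    refine ((Module.FaithfullyFlat.iff_flat_and_proper_ideal C B).1 h5).2 I hI ?_
    rw [Ideal.smul_top_eq_map, Submodule.restrictScalars_eq_top_iff, Ideal.eq_top_iff_one,
      ← map_one (algebraMap C B), ← h6]
    exact sum_mem fun i _ => by
      rw [Algebra.smul_def]
      exact Ideal.mul_mem_right _ _ (Ideal.mem_map_of_mem _ (h3 i))

theorem ff_adj {B : Type u} [CommRing B] {g : B[X]} (h : g.Monic)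
    (h0 : Nontrivial B → 0 < g.natDegree) : Module.FaithfullyFlat B (AdjoinRoot g) := by
  have b := (AdjoinRoot.powerBasis' h).basis
  rcases subsingleton_or_nontrivial B with k | k
  · have := Module.Free.of_basis b
    exact ⟨fun m hm => (hm.ne_top (Subsingleton.elim _ _)).elim⟩
  · have : Nonempty (Fin (AdjoinRoot.powerBasis' h).dim) := ⟨⟨0, h0 k⟩⟩
    exact Module.FaithfullyFlat.of_linearEquiv _ _ b.repr

/-- finitely many roots -/
theorem fin_step {D P I : Type u} [CommRing D] [CommRing P] [Algebra D P] (f : I → D[X])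
    (h : ∀ i, (f i).Monic ∧ 0 < (f i).natDegree) (e : I → P) (he : ∀ i, aeval (e i) (f i) = 0)
    (S : Finset I) : ∃ (B : Type u) (_ : CommRing B) (_ : Algebra D B) (φ : B →ₐ[D] P) (b : I → B),
      Module.FaithfullyFlat D B ∧ ∀ j ∈ S, aeval (b j) (f j) = 0 ∧ φ (b j) = e j := by
  classical
  induction S using Finset.induction_on with
  | empty => exact ⟨D, _, _, Algebra.ofId D P, 0, inferInstance, by simp⟩
  | insert i S hi ih =>
    obtain ⟨B, _, _, φ, b, h1, h2⟩ := ih
    have h3 := ff_adj ((h i).1.map (algebraMap D B)) fun _ => by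
      rw [(h i).1.natDegree_map]
      exact (h i).2
    have h4 : ((f i).map (algebraMap D B)).eval₂ φ (e i) = 0 := by
      rw [eval₂_map, AlgHom.comp_algebraMap]
      exact he i
    refine ⟨AdjoinRoot ((f i).map (algebraMap D B)), _, _, AdjoinRoot.liftAlgHom _ φ _ h4,
      fun j => if j = i then AdjoinRoot.root _ else algebraMap B _ (b j),
      Module.FaithfullyFlat.trans D B _, fun j hj => ?_⟩
    dsimp only
    by_cases k : j = i
    · rw [if_pos k, k, ← aeval_map_algebraMap B, AdjoinRoot.aeval_eq, AdjoinRoot.mk_self,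
        AdjoinRoot.liftAlgHom_root]
      exact ⟨rfl, rfl⟩
    · obtain ⟨h5, h6⟩ := h2 j ((Finset.mem_insert.1 hj).resolve_left k)
      rw [if_neg k, aeval_algebraMap_apply, h5, map_zero, AdjoinRoot.algebraMap_eq,
        AdjoinRoot.liftAlgHom_of]
      exact ⟨rfl, h6⟩

/-- one step: roots of all the monic polynomials -/
theorem step (D : CommRingCat.{u}) : ∃ (P : CommRingCat.{u}) (φ : D ⟶ P), φ.hom.FaithfullyFlat ∧
    ∀ f : D[X], f.Monic → 0 < f.natDegree → ∃ x, f.eval₂ φ.hom x = 0 := by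
  classical
  let I := {f : D[X] // f.Monic ∧ 0 < f.natDegree}
  let v : I → MvPolynomial I D := fun i => aeval (MvPolynomial.X i) i.1
  let J := Ideal.span (Set.range v)
  have he : ∀ i : I, aeval (Ideal.Quotient.mkₐ D J (MvPolynomial.X i)) i.1 = 0 := fun i => by
    rw [aeval_algHom_apply]
    exact Ideal.Quotient.eq_zero_iff_mem.2 (Ideal.subset_span ⟨i, rfl⟩)
  refine ⟨.of (MvPolynomial I D ⧸ J), CommRingCat.ofHom (algebraMap D _),
    RingHom.faithfullyFlat_algebraMap_iff.2 (ff_of_loc fun l f x c hx => ?_),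
    fun f h1 h2 => ⟨_, he ⟨f, h1, h2⟩⟩⟩
  choose g hg using fun i => Ideal.Quotient.mkₐ_surjective D J (x i)
  have h1 : ∑ i, f i • g i - algebraMap D _ c ∈ J := by
    rw [← Ideal.Quotient.eq_zero_iff_mem, ← Ideal.Quotient.mkₐ_eq_mk D]
    simp only [map_sub, map_sum, map_smul, hg, AlgHom.commutes, hx, sub_self]
  obtain ⟨w, hw⟩ := Finsupp.mem_ideal_span_range_iff_exists_finsupp.1 h1
  obtain ⟨B, _, _, φ, b, h2, h3⟩ := fin_step (fun i : I => i.1) (fun i => i.2) _ he
    (w.support ∪ Finset.univ.biUnion fun i => (g i).vars)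
  refine ⟨B, _, _, φ, fun i => MvPolynomial.aeval b (g i), h2, fun i => ?_, ?_⟩
  · rw [← hg i]
    refine MvPolynomial.hom_congr_vars (f₁ := (φ.comp (MvPolynomial.aeval b)).toRingHom)
      (f₂ := (Ideal.Quotient.mkₐ D J).toRingHom) (RingHom.ext fun a => ?_) (fun j hj _ => ?_) rfl
    · exact ((φ.comp (MvPolynomial.aeval b)).commutes a).trans
        ((Ideal.Quotient.mkₐ D J).commutes a).symm
    · exact (congrArg φ (MvPolynomial.aeval_X b j)).trans (h3 j (Finset.mem_union_right _
        (Finset.mem_biUnion.2 ⟨i, Finset.mem_univ _, hj⟩))).2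
  · have h4 := congrArg (MvPolynomial.aeval b) hw
    rw [map_sub, map_sum, AlgHom.commutes, Finsupp.sum, map_sum, Finset.sum_eq_zero fun j hj => by
      rw [map_mul, ← aeval_algHom_apply, MvPolynomial.aeval_X,
        (h3 j (Finset.mem_union_left _ hj)).1, mul_zero]] at h4
    simpa only [map_smul] using sub_eq_zero.1 h4.symm

open CategoryTheory in
/-- the limit of a tower -/
theorem lim (T : ℕ → CommRingCat.{u}) (φ : ∀ n, T n ⟶ T (n + 1))
    (h1 : ∀ n, (φ n).hom.FaithfullyFlat)
    (h2 : ∀ n (f : (T n)[X]), f.Monic → 0 < f.natDegree → ∃ x, f.eval₂ (φ n).hom x = 0) :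
    ∃ (D : Type u) (_ : CommRing D) (_ : Algebra (T 0) D),
      Module.FaithfullyFlat (T 0) D ∧ Aic D := by
  let F := Functor.ofSequence φ
  let t : ∀ i j : ℕ, i ≤ j → (T i).carrier →+* (T j).carrier :=
    fun i j h => CommRingCat.Hom.hom (F.map (homOfLE h) : T i ⟶ T j)
  have t1 : ∀ i, t i i le_rfl = RingHom.id _ := fun i => congrArg CommRingCat.Hom.hom (F.map_id i)
  have t2 : ∀ i j k (h : i ≤ j) (h' : j ≤ k), t i k (h.trans h') = (t j k h').comp (t i j h) :=
    fun i j k h h' => congrArg CommRingCat.Hom.hom (F.map_comp (homOfLE h) (homOfLE h'))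
  have t3 : ∀ i, t i (i + 1) (Nat.le_succ i) = (φ i).hom := fun i =>
    congrArg CommRingCat.Hom.hom (Functor.ofSequence_map_homOfLE_succ _ i)
  have : DirectedSystem (fun n => T n) fun i j h => t i j h :=
    ⟨fun i x => by rw [t1]; rfl, fun k j i h h' x => by rw [t2 i j k h h']; rfl⟩
  have t4 : ∀ n, (t 0 n n.zero_le).FaithfullyFlat := fun n => by
    induction n with
    | zero => exact t1 0 ▸ .of_bijective Function.bijective_id
    | succ n ih =>
      rw [t2 0 n (n + 1) n.zero_le n.le_succ, t3]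
      exact RingHom.FaithfullyFlat.stableUnderComposition _ _ ih (h1 _)
  let o := Ring.DirectLimit.of (fun n => T n) fun i j h => t i j h
  let al : Algebra (T 0) (Ring.DirectLimit (fun n => T n) fun i j h => t i j h) := (o 0).toAlgebra
  refine ⟨_, _, al, ff_of_loc fun l f x c hx => ?_, fun f hf h0 => ?_⟩
  · choose m y hy using fun i => Ring.DirectLimit.exists_of (x i)
    obtain ⟨n, hn⟩ := (Set.finite_range m).bddAbove
    have hn' : ∀ i, m i ≤ n := fun i => hn ⟨i, rfl⟩
    obtain ⟨k, hk, h3⟩ := Ring.DirectLimit.of.zero_exact (G := fun n => T n) (f' := t) (i := n)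
      (x := ∑ i, t 0 n n.zero_le (f i) * t _ n (hn' i) (y i) - t 0 n n.zero_le c) (by
        simp only [map_sub, map_sum, map_mul, Ring.DirectLimit.of_f, hy]
        exact sub_eq_zero.2 hx)
    let _ : Algebra (T 0) (T k) := (t 0 k k.zero_le).toAlgebra
    refine ⟨T k, _, inferInstance, ⟨o k, fun a => Ring.DirectLimit.of_f _ _⟩,
      fun i => t _ k ((hn' i).trans hk) (y i), t4 k,
      fun i => (Ring.DirectLimit.of_f _ _).trans (hy i), sub_eq_zero.1 (Eq.trans ?_ h3)⟩
    simp only [map_sub, map_sum, map_mul, ← RingHom.comp_apply, ← t2]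
    rfl
  · obtain ⟨n, q, hq⟩ := Ring.DirectLimit.Polynomial.exists_of (G := fun n => T n) (f' := t) f
    obtain ⟨q', k1, k2, k3⟩ := lifts_and_natDegree_eq_and_monic (f := o n) ⟨q, hq⟩ hf
    obtain ⟨x, hx⟩ := h2 _ q' k3 (k2 ▸ h0)
    refine ⟨o (n + 1) x, ?_⟩
    have k4 : o n = (o (n + 1)).comp (φ n).hom := RingHom.ext fun a => by
      rw [← t3]
      exact (Ring.DirectLimit.of_f _ _).symm
    rw [← k1, IsRoot, Polynomial.eval_map, k4, ← hom_eval₂]
    exact (congrArg (o (n + 1)) hx).trans (map_zero _)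

end AicA

theorem exists_aic (C : Type u) [CommRing C] : ∃ (D : Type u) (_ : CommRing D) (_ : Algebra C D),
    Module.FaithfullyFlat C D ∧ Aic D := by
  choose Pl φ h1 h2 using AicA.step.{u}
  exact AicA.lim (fun n => Nat.rec (.of C) (fun _ D => Pl D) n) (fun _ => φ _) (fun _ => h1 _)
    fun _ => h2 _

theorem Aic.of_surj {D E : Type*} [CommRing D] [CommRing E] (f : D →+* E)
    (hf : Function.Surjective f) (h : Aic D) : Aic E := fun g hg h0 => by
  obtain ⟨q, k1, k2, k3⟩ := lifts_and_natDegree_eq_and_monic (map_surjective f hf g) hg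
  obtain ⟨x, hx⟩ := h q k3 (k2 ▸ h0)
  exact ⟨f x, k1 ▸ hx.map⟩

theorem Aic.loc {D : Type*} [CommRing D] (h : Aic D) (S : Submonoid D) (L : Type*) [CommRing L]
    [Algebra D L] [IsLocalization S L] : Aic L := fun g hg h0 => by
  obtain ⟨q, k1, k2, k3⟩ := lifts_and_natDegree_eq_and_monic
    (IsLocalization.scaleRoots_commonDenom_mem_lifts S g ⟨1, (map_one _).trans hg.symm⟩)
    ((monic_scaleRoots_iff _).2 hg)
  obtain ⟨x, hx⟩ := h q k3 (by rwa [k2, natDegree_scaleRoots])
  obtain ⟨s, hs⟩ := IsLocalization.map_units L (IsLocalization.commonDenom S g.support g.coeff)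
  have k4 := scaleRoots_eval_mul g (s⁻¹ * algebraMap D L x) s
  rw [Units.mul_inv_cancel_left, hs, ← k1, (hx.map (f := algebraMap D L)).eq_zero, ← hs] at k4
  exact ⟨_, (s.isUnit.pow _).mul_right_eq_zero.1 k4.symm⟩

variable {p : ℕ} [hp : Fact p.Prime]

theorem Aic.pf {D : Type*} [CommRing D] [Ch p D] (h : Aic D) : Pf p (D ⧸ nilradical D) :=
  { bij := ⟨fun x y hxy => by
      obtain ⟨x, rfl⟩ := Ideal.Quotient.mk_surjective x
      obtain ⟨y, rfl⟩ := Ideal.Quotient.mk_surjective y
      refine Ideal.Quotient.eq.2 ((Ideal.radical_isRadical _) ⟨p, ?_⟩)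
      have := sub_pow_pp x y 1
      rw [pow_one] at this
      rw [this]
      refine Ideal.Quotient.eq.1 ?_
      rw [map_pow, map_pow]
      exact hxy, fun a => by
      rcases subsingleton_or_nontrivial (D ⧸ nilradical D) with k | k
      · exact ⟨a, Subsingleton.elim _ _⟩
      · obtain ⟨x, hx⟩ := h.of_surj _ (Ideal.Quotient.mk_surjective (I := nilradical D))
          (X ^ p - C a) (monic_X_pow_sub_C a hp.out.ne_zero)
          (by rw [natDegree_X_pow_sub_C]; exact hp.out.pos)
        exact ⟨x, by simpa [sub_eq_zero] using hx⟩⟩ }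

theorem exists_pf_aic (C : Type u) [CommRing C] [Ch p C] :
    ∃ (D : Type u) (_ : CommRing D) (_ : Algebra C D) (E : Type u) (_ : CommRing E) (_ : Pf p E)
      (pi : D →+* E), Module.FaithfullyFlat C D ∧ Aic E ∧
      ∀ (L : Type u) [CommRing L] [IsReduced L] (g : D →+* L), ∃ g' : E →+* L, g'.comp pi = g := by
  obtain ⟨D, _, _, h1, h2⟩ := exists_aic C
  have : Ch p D := Ch.of_hom (algebraMap C D)
  refine ⟨D, _, _, D ⧸ nilradical D, _, h2.pf, Ideal.Quotient.mk _, h1,
    h2.of_surj _ Ideal.Quotient.mk_surjective, fun L _ _ g => ⟨Ideal.Quotient.lift _ g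
      fun a ha => ((mem_nilradical.1 ha).map g).eq_zero, RingHom.ext fun _ => rfl⟩⟩

end P261
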