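import Vale.Agent.P261Z.W.Fil

/-!
# P261Z, block W: generated filtrations, pole filtrations, integral elements
-/

open WittVector

noncomputable section

namespace P261

namespace Fil

variable {p : ℕ} {K L : Type*} [CommRing K] [CommRing L]

/-- the intersection of filtrations -/
def inf {ι : Sort*} (G : ι → Fil p K) : Fil p K where
  F t := ⨅ i, (G i).F t
  mono := fun _ _ h => iInf_mono fun i => (G i).mono h
  one_mem := AddSubgroup.mem_iInf.2 fun i => (G i).one_mem
  mul_mem := fun hx hy => AddSubgroup.mem_iInf.2 fun i =>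
    (G i).mul_mem (AddSubgroup.mem_iInf.1 hx i) (AddSubgroup.mem_iInf.1 hy i)
  root := fun h => AddSubgroup.mem_iInf.2 fun i => (G i).root (AddSubgroup.mem_iInf.1 h i)

theorem mem_inf {ι : Sort*} {G : ι → Fil p K} {t : ℝ} {x : K} :
    x ∈ (inf G).F t ↔ ∀ i, x ∈ (G i).F t := AddSubgroup.mem_iInf

theorem closed_inf {ι : Sort*} {G : ι → Fil p K} (h : ∀ i, (G i).Closed) : (inf G).Closed :=
  fun _ _ hx => mem_inf.2 fun i => h i _ _ fun ε hε => mem_inf.1 (hx ε hε) i

theorem mem_comap {F : Fil p K} {f : L →+* K} {t : ℝ} {x : L} :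
    x ∈ (F.comap f).F t ↔ f x ∈ F.F t := Iff.rfl

theorem Closed.comap {F : Fil p K} (h : F.Closed) (f : L →+* K) : (F.comap f).Closed :=
  fun _ _ hx => h _ _ hx

theorem Maps.id (F : Fil p K) : Maps (RingHom.id K) F F := fun _ _ h => h

theorem Maps.comp {M : Type*} [CommRing M] {F : Fil p K} {G : Fil p L} {H : Fil p M}
    {f : K →+* L} {g : L →+* M} (hg : Maps g G H) (hf : Maps f F G) : Maps (g.comp f) F H :=
  fun _ _ h => hg _ _ (hf _ _ h)

theorem ext' {F G : Fil p K} (h : ∀ t x, x ∈ F.F t ↔ x ∈ G.F t) : F = G := by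
  obtain ⟨F, _, _, _, _⟩ := F
  obtain ⟨G, _, _, _, _⟩ := G
  obtain rfl : F = G := funext fun t => AddSubgroup.ext (h t)
  rfl

variable (p) in
/-- the smallest closed filtration in which `a i` has weight `τ i` -/
def gen {ι : Type*} (a : ι → K) (τ : ι → ℝ) : Fil p K :=
  inf fun G : {G : Fil p K // G.Closed ∧ ∀ i, a i ∈ G.F (τ i)} => G.1

section gen

variable {ι : Type*} {a : ι → K} {τ : ι → ℝ}

theorem closed_gen : (gen p a τ).Closed := closed_inf fun G => G.2.1

theorem mem_gen (i : ι) : a i ∈ (gen p a τ).F (τ i) := mem_inf.2 fun G => G.2.2 i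

theorem gen_maps {G : Fil p L} (hG : G.Closed) {f : K →+* L} :
    Maps f (gen p a τ) G ↔ ∀ i, f (a i) ∈ G.F (τ i) :=
  ⟨fun h i => h _ _ (mem_gen i), fun h _ _ hx => mem_inf.1 hx ⟨G.comap f, hG.comap f, h⟩⟩

end gen

variable {F : Fil p K} {s t : ℝ} {x y : K}

theorem natCast_mem' (n : ℕ) : (n : K) ∈ F.F 0 := natCast_mem F.zero n

/-- multiplication by an element of exact weight shifts the weights -/
theorem shift_iff {w : Kˣ} {a : ℝ} (h1 : (w : K) ∈ F.F (-a)) (h2 : ((w⁻¹ : Kˣ) : K) ∈ F.F a) :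
    (w : K) * x ∈ F.F (t - a) ↔ x ∈ F.F t :=
  ⟨fun h => by simpa using mul_le (u := t) h2 h (by linarith), fun h => mul_le h1 h (by linarith)⟩

theorem zpow_mem {w : Kˣ} {a : ℝ} (h1 : (w : K) ∈ F.F (-a)) (h2 : ((w⁻¹ : Kˣ) : K) ∈ F.F a)
    (m : ℤ) : ((w ^ m : Kˣ) : K) ∈ F.F (-(m * a)) := by
  obtain ⟨n, rfl | rfl⟩ := m.eq_nat_or_neg
  · rw [zpow_natCast, Units.val_pow_eq_pow_val]
    exact le (pow_mem h1 n) (by push_cast; linarith)
  · rw [zpow_neg, zpow_natCast, ← inv_pow, Units.val_pow_eq_pow_val]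
    exact le (pow_mem h2 n) (by push_cast; linarith)

variable [hp : Fact p.Prime]

theorem Closed.of_pow (hF : F.Closed) {b : ℝ} (h : ∀ k : ℕ, x ∈ F.F (t + b / p ^ k)) :
    x ∈ F.F t := by
  refine hF _ _ fun ε hε => ?_
  obtain ⟨k, hk⟩ := pow_unbounded_of_one_lt (b / ε) (by linarith [two_le_p (p := p)] : (1 : ℝ) < p)
  refine le (h k) ?_
  have := pow_pos (p_pos' (p := p)) k
  rw [div_lt_iff₀ hε] at hk
  have : b / p ^ k ≤ ε := by rw [div_le_iff₀ this]; linarith
  linarith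

/-- a root of a monic polynomial has the weight which its coefficients predict -/
theorem Closed.of_monic (hF : F.Closed) (hx : x ∈ F.F t) {d : ℕ} {a : ℕ → K}
    (ha : ∀ i < d, a i ∈ F.F ((d - i : ℝ) * s)) (h : x ^ d = ∑ i ∈ Finset.range d, a i * x ^ i) :
    x ∈ F.F s := by
  rcases le_total t s with hts | hts
  · exact le hx hts
  have h1 : ∀ n : ℕ, x ^ n ∈ F.F (n * s + d * (t - s)) := by
    intro n
    induction n using Nat.strong_induction_on with
    | _ n ih =>
      rcases lt_or_ge n d with hn | hn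
      · refine le (pow_mem hx n) ?_
        have : (n : ℝ) ≤ d := by exact_mod_cast hn.le
        nlinarith
      · obtain ⟨m, rfl⟩ := Nat.exists_eq_add_of_le hn
        rw [pow_add, h, Finset.sum_mul]
        refine sum_mem fun i hi => ?_
        rw [mul_assoc, ← pow_add]
        have hi := Finset.mem_range.1 hi
        refine mul_le (ha i hi) (ih _ (by omega)) (le_of_eq ?_)
        push_cast
        ring
  refine hF.of_pow (b := d * (t - s)) fun k => root_pow k (le (h1 _) (le_of_eq ?_))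
  have := (pow_pos (p_pos' (p := p)) k).ne'
  push_cast
  field_simp

theorem Closed.of_integral (hF : F.Closed) (hx : x ∈ F.F t) (h : IsIntegral F.zero x) :
    x ∈ F.F 0 := by
  obtain ⟨f, hf, h⟩ := h
  refine hF.of_monic hx (d := f.natDegree) (a := fun i => -(f.coeff i : K))
    (fun i _ => by rw [mul_zero]; exact neg_mem (f.coeff i).2) ?_
  rw [Polynomial.eval₂_eq_sum_range, Finset.sum_range_succ, hf.coeff_natDegree, map_one,
    one_mul] at h
  simp only [neg_mul, Finset.sum_neg_distrib]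
  exact eq_neg_of_add_eq_zero_right h

/-! ### the pole filtration -/

variable [Ch p K]

omit hp [Ch p K] in
private theorem root_iter {C : Subring K} (hC : ∀ x, x ^ p ∈ C → x ∈ C) (k : ℕ) {x : K}
    (h : x ^ p ^ k ∈ C) : x ∈ C := by
  induction k with
  | zero => simpa using h
  | succ k ih => exact ih (hC _ (by rwa [← pow_mul, ← pow_succ]))

omit hp [Ch p K] in
private theorem zpow_mem' {C : Subring K} {w : Kˣ} (hw : (w : K) ∈ C) {a : ℤ} (h : 0 ≤ a) :
    ((w ^ a : Kˣ) : K) ∈ C := by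
  lift a to ℕ using h
  rw [zpow_natCast, Units.val_pow_eq_pow_val]
  exact C.pow_mem hw a

/-- the order of the pole along `w` is at most `t`, up to an arbitrarily small loss -/
def pole (C : Subring K) (w : Kˣ) (hw : (w : K) ∈ C) (hC : ∀ x, x ^ p ∈ C → x ∈ C) : Fil p K where
  F t :=
    { carrier := {x | ∀ (k : ℕ) (a : ℤ), (p : ℝ) ^ k * t < a → ((w ^ a : Kˣ) : K) * x ^ p ^ k ∈ C}
      add_mem' := fun hx hy k a h => by
        rw [add_pow_pp, mul_add]; exact add_mem (hx k a h) (hy k a h)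
      zero_mem' := fun k a _ => by
        rw [zero_pow (pow_ne_zero _ hp.out.ne_zero), mul_zero]; exact zero_mem _
      neg_mem' := fun hx k a h => by rw [neg_pow_pp, mul_neg]; exact neg_mem (hx k a h) }
  mono := fun _ _ h _ hx k a ha =>
    hx k a ((mul_le_mul_of_nonneg_left h (by positivity)).trans_lt ha)
  one_mem := fun k a h => by
    rw [one_pow, mul_one]
    exact zpow_mem' hw (by rw [mul_zero] at h; exact_mod_cast h.le)
  mul_mem := fun {s t x y} hx hy k a h => by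
    obtain ⟨m, hm⟩ := pow_unbounded_of_one_lt (2 / (a - p ^ k * (s + t)))
      (by linarith [two_le_p (p := p)] : (1 : ℝ) < p)
    rw [div_lt_iff₀ (sub_pos.2 h)] at hm
    have h1 := hx (k + m) (⌊(p : ℝ) ^ (k + m) * s⌋ + 1) (by push_cast; exact Int.lt_floor_add_one _)
    have h2 := hy (k + m) (a * p ^ m - (⌊(p : ℝ) ^ (k + m) * s⌋ + 1)) (by
      have := Int.floor_le ((p : ℝ) ^ (k + m) * s)
      push_cast
      rw [pow_add] at this ⊢
      nlinarith)
    refine root_iter hC m ?_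
    convert C.mul_mem h1 h2 using 1
    rw [mul_mul_mul_comm, ← Units.val_mul, ← zpow_add, add_sub_cancel, mul_pow, ← pow_mul,
      ← pow_add, mul_pow, ← Units.val_pow_eq_pow_val, ← zpow_natCast, ← zpow_mul, Nat.cast_pow]
  root := fun {t x} h k a ha => hC _ (by
    have := h k (a * p) (by
      push_cast
      nlinarith [p_pos' (p := p)])
    rwa [mul_pow, ← pow_mul, ← Units.val_pow_eq_pow_val, ← zpow_natCast, ← zpow_mul, mul_comm _ p,
      pow_mul])

section pole

variable {C : Subring K} {w : Kˣ} {hw : (w : K) ∈ C} {hC : ∀ x, x ^ p ∈ C → x ∈ C}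

theorem mem_pole : x ∈ (pole C w hw hC).F t ↔
    ∀ (k : ℕ) (a : ℤ), (p : ℝ) ^ k * t < a → ((w ^ a : Kˣ) : K) * x ^ p ^ k ∈ C := Iff.rfl

theorem closed_pole : (pole C w hw hC).Closed := fun t _ h k a ha => by
  have h0 := pow_pos (p_pos' (p := p)) k
  refine h ((a - p ^ k * t) / p ^ k / 2) (by have := sub_pos.2 ha; positivity) k a ?_
  have : (p : ℝ) ^ k * ((a - p ^ k * t) / p ^ k / 2) = (a - p ^ k * t) / 2 := by field_simp
  rw [mul_add, this]
  linarith

theorem pole_of_zpow {N : ℤ} (h : ((w ^ N : Kˣ) : K) * x ∈ C) : x ∈ (pole C w hw hC).F N := by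
  intro k a ha
  have h1 : 0 ≤ a - N * p ^ k := by
    have : (p : ℤ) ^ k * N < a := by exact_mod_cast ha
    linarith
  convert C.mul_mem (zpow_mem' hw h1) (C.pow_mem h (p ^ k)) using 1
  rw [mul_pow, ← mul_assoc, ← Units.val_pow_eq_pow_val, ← zpow_natCast, ← zpow_mul,
    ← Units.val_mul, ← zpow_add, Nat.cast_pow, sub_add_cancel]

theorem pole_of_pow {N : ℕ} (h : (w : K) ^ N * x ∈ C) : x ∈ (pole C w hw hC).F N := by
  have := pole_of_zpow (hw := hw) (hC := hC) (N := N) (x := x)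
    (by rwa [zpow_natCast, Units.val_pow_eq_pow_val])
  exact_mod_cast this

theorem pole_of_mem (h : x ∈ C) : x ∈ (pole C w hw hC).F 0 := by
  simpa using pole_of_pow (hw := hw) (hC := hC) (N := 0) (x := x) (by simpa using h)

theorem pow_mul_of_pole (h : x ∈ (pole C w hw hC).F t) {N : ℕ} (hN : t < N) :
    (w : K) ^ N * x ∈ C := by
  simpa using h 0 N (by simpa using hN)

theorem exh_pole (h : ∀ x : K, ∃ N : ℕ, (w : K) ^ N * x ∈ C) : (pole C w hw hC).Exh := fun x =>
  (h x).elim fun N hN => ⟨N, pole_of_pow hN⟩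

theorem pole_w : (w : K) ∈ (pole C w hw hC).F (-1) := by
  simpa using pole_of_zpow (hw := hw) (hC := hC) (N := -1) (x := (w : K)) (by simp)

theorem pole_inv : ((w⁻¹ : Kˣ) : K) ∈ (pole C w hw hC).F 1 := by
  simpa using pole_of_zpow (hw := hw) (hC := hC) (N := 1) (x := ((w⁻¹ : Kˣ) : K)) (by simp)

theorem pole_zero_iff : x ∈ (pole C w hw hC).F 0 ↔ ∀ k : ℕ, (w : K) * x ^ p ^ k ∈ C := by
  refine ⟨fun h k => by simpa using h k 1 (by simp), fun h k a ha => ?_⟩
  have h1 : 0 ≤ a - 1 := by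
    have : 0 < a := by rw [mul_zero] at ha; exact_mod_cast ha
    omega
  convert C.mul_mem (zpow_mem' hw h1) (h k) using 1
  rw [← mul_assoc, ← Units.val_mul, ← zpow_add_one, sub_add_cancel]

/-- the universal property -/
theorem pole_maps {G : Fil p L} (hG : G.Closed) {f : K →+* L} : Maps f (pole C w hw hC) G ↔
      (∀ x ∈ C, f x ∈ G.F 0) ∧ f w ∈ G.F (-1) ∧ f (w⁻¹ : Kˣ) ∈ G.F 1 := by
  refine ⟨fun h => ⟨fun x hx => h _ _ (pole_of_mem hx), h _ _ pole_w, h _ _ pole_inv⟩,
    fun ⟨h0, h1, h2⟩ t x hx => ?_⟩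
  refine hG.of_pow (b := 1) fun k => root_pow k ?_
  have h3 := h0 _ (hx k (⌊(p : ℝ) ^ k * t⌋ + 1) (by push_cast; exact Int.lt_floor_add_one _))
  have h4 := zpow_mem (F := G.comap f) (a := 1) h1 h2 (-(⌊(p : ℝ) ^ k * t⌋ + 1))
  have h5 := G.mul_mem (mem_comap.1 h4) h3
  rw [← map_mul, ← mul_assoc, ← Units.val_mul, ← zpow_add, neg_add_cancel, zpow_zero,
    Units.val_one, one_mul, map_pow] at h5
  refine le h5 ?_
  have := Int.floor_le ((p : ℝ) ^ k * t)
  rw [mul_add, mul_one_div_cancel (pow_pos p_pos' k).ne']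
  push_cast
  linarith

theorem pole_maps_pole [Ch p L] {C' : Subring L} {w' : Lˣ} {hw' : (w' : L) ∈ C'}
    {hC' : ∀ x, x ^ p ∈ C' → x ∈ C'} {f : K →+* L} (h : ∀ x ∈ C, f x ∈ C') (e : f w = w') :
    Maps f (pole C w hw hC) (pole C' w' hw' hC') := by
  obtain rfl : Units.map f.toMonoidHom w = w' := Units.ext e
  exact (pole_maps closed_pole).2 ⟨fun x hx => pole_of_mem (h x hx), pole_w, pole_inv⟩

/-- a closed filtration in which `w` has exact weight `-1` is a pole filtration -/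
theorem Closed.eq_pole (hF : F.Closed) (h1 : (w : K) ∈ F.F (-1)) (h2 : ((w⁻¹ : Kˣ) : K) ∈ F.F 1) :
    F = pole F.zero w (le h1 (by norm_num)) fun _ h => F.root (by rwa [mul_zero]) := by
  refine ext' fun t x => ⟨fun h k a ha => ?_, fun h => (pole_maps (f := RingHom.id K) hF).2
    ⟨fun _ h => h, h1, h2⟩ _ _ h⟩
  exact mul_le (zpow_mem (a := 1) h1 h2 a) (pow_mem h _) (by push_cast; linarith)

theorem WL_pole_of_tm {N : ℕ} {z : WittVector p K} (h : tm p (w : K) ^ N * z ∈ wsub C) :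
    z ∈ (pole C w hw hC).WL N := by
  refine mem_WL.2 fun j => ?_
  have h1 := mem_wsub.1 h j
  rw [← map_pow, coeff_tm_mul, ← pow_mul] at h1
  exact le (pole_of_pow h1) (by push_cast; linarith)

theorem tm_mul_of_WL_pole {N : ℕ} {z : WittVector p K} (h : z ∈ (pole C w hw hC).WL t)
    (hN : t < N) : tm p (w : K) ^ N * z ∈ wsub C := by
  refine mem_wsub.2 fun j => ?_
  rw [← map_pow, coeff_tm_mul, ← pow_mul]
  refine pow_mul_of_pole (mem_WL.1 h j) ?_
  have := pow_pos (p_pos' (p := p)) j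
  push_cast
  nlinarith

end pole

theorem pole_zero_iff_rt {K : Type*} [CommRing K] [Pf p K] {C : Subring K} {w : Kˣ}
    {hw : (w : K) ∈ C} {hC : ∀ x, x ^ p ∈ C → x ∈ C} {x : K} :
    x ∈ (pole C w hw hC).F 0 ↔ ∀ k : ℕ, (rt p K ^ k) w * x ∈ C :=
  pole_zero_iff.trans (forall_congr' fun k => by
    rw [← rt_pow_pp k (w : K), ← mul_pow, rt_pow_pp']
    exact ⟨root_iter hC k, fun h => C.pow_mem h _⟩)

end Fil

end P261
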