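import Vale.Agent.P261Z.W.Pf

/-!
# P261Z, block W: the perfect hull, tensor products of perfect rings
-/

open scoped TensorProduct

noncomputable section

namespace P261

universe u v

variable {p : ℕ} [hp : Fact p.Prime]

/-! ### the perfect hull -/

/-- the transition maps -/
def PH.tr (p : ℕ) [Fact p.Prime] (A : Type u) [CommRing A] [Ch p A] (i j : ℕ) (_ : i ≤ j) :
    A →+* A := fr p A ^ (j - i)

/-- the perfect hull: the colimit along the Frobenius -/
def PH (p : ℕ) [Fact p.Prime] (A : Type u) [CommRing A] [Ch p A] : Type u :=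
  Ring.DirectLimit (fun _ : ℕ => A) fun i j h => PH.tr p A i j h

namespace PH

variable {A : Type u} [CommRing A] {B C L k : Type*} [CommRing B] [CommRing C] [CommRing L]
  [CommRing k]

section

variable [Ch p A]

theorem tr_apply {i j : ℕ} (h : i ≤ j) (a : A) : tr p A i j h a = a ^ p ^ (j - i) :=
  fr_pow_apply _ _

theorem directed : DirectedSystem (fun _ : ℕ => A) fun i j h => tr p A i j h where
  map_self := fun i x => by rw [tr_apply, Nat.sub_self, pow_zero, pow_one]
  map_map := fun _ _ _ h1 h2 x => by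
    rw [tr_apply, tr_apply, tr_apply, ← pow_mul, ← pow_add]
    congr 2
    omega

instance : CommRing (PH p A) :=
  inferInstanceAs (CommRing (Ring.DirectLimit (fun _ : ℕ => A) fun i j h => tr p A i j h))

variable (p) in
/-- the root of order `p ^ i` -/
def mk (i : ℕ) : A →+* PH p A := Ring.DirectLimit.of (fun _ : ℕ => A) (fun i j h => tr p A i j h) i

theorem mk_pow (i j : ℕ) (a : A) : mk p (i + j) (a ^ p ^ j) = mk p i a := by
  have := Ring.DirectLimit.of_f (G := fun _ : ℕ => A) (f := fun i j h => tr p A i j h)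
    (Nat.le_add_right i j) a
  rwa [tr_apply, Nat.add_sub_cancel_left] at this

theorem exists_mk (x : PH p A) : ∃ i a, mk p i a = x := Ring.DirectLimit.exists_of x

theorem mk_eq_zero {i : ℕ} {a : A} : mk p i a = 0 ↔ IsNilpotent a := by
  constructor
  · intro h
    have := directed (p := p) (A := A)
    obtain ⟨j, hij, e⟩ := Ring.DirectLimit.of.zero_exact (f' := tr p A) h
    exact ⟨_, (tr_apply hij a).symm.trans e⟩
  · rintro ⟨N, h⟩
    rw [← mk_pow i N, pow_eq_zero_of_le (Nat.lt_pow_self one_lt_p).le h, map_zero]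

instance [Algebra k A] : Algebra k (PH p A) := ((mk p 0).comp (algebraMap k A)).toAlgebra

theorem algebraMap_eq [Algebra k A] (c : k) :
    algebraMap k (PH p A) c = algebraMap A (PH p A) (algebraMap k A c) := rfl

theorem of_eq (a : A) : algebraMap A (PH p A) a = mk p 0 a := rfl

instance {l : Type*} [CommRing l] [Algebra k l] [Algebra l A] [Algebra k A] [IsScalarTower k l A] :
    IsScalarTower k l (PH p A) :=
  IsScalarTower.of_algebraMap_eq fun c => by
    rw [algebraMap_eq, algebraMap_eq (k := l), ← IsScalarTower.algebraMap_apply k l A]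

theorem mk_pow_self (i : ℕ) (a : A) : mk p i a ^ p ^ i = algebraMap A (PH p A) a := by
  rw [← map_pow, of_eq, ← mk_pow 0 i, Nat.zero_add]

instance : Pf p (PH p A) :=
  haveI : Ch p (PH p A) := Ch.of_hom (mk p 0)
  { bij := ⟨fun x y h => by
      obtain ⟨i, a, e⟩ := exists_mk (x - y)
      have h1 := sub_pow_pp x y 1
      rw [pow_one, ← e, ← map_pow, sub_eq_zero.2 h, mk_eq_zero] at h1
      rw [← sub_eq_zero, ← e, mk_eq_zero]
      exact h1.of_pow, fun x => by
      obtain ⟨i, a, rfl⟩ := exists_mk x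
      exact ⟨mk p (i + 1) a, by rw [← mk_pow i 1, pow_one, map_pow]⟩⟩ }

theorem mk_eq_rt (i : ℕ) (a : A) : mk p i a = (rt p (PH p A) ^ i) (algebraMap A _ a) := by
  rw [← mk_pow_self i, rt_pow_pp']

theorem exists_pow (x : PH p A) : ∃ (k : ℕ) (a : A), x ^ p ^ k = algebraMap A _ a := by
  obtain ⟨i, a, rfl⟩ := exists_mk x
  exact ⟨i, a, mk_pow_self i a⟩

theorem exists_rt (x : PH p A) :
    ∃ (k : ℕ) (a : A), x = (rt p (PH p A) ^ k) (algebraMap A _ a) := by
  obtain ⟨i, a, rfl⟩ := exists_mk x
  exact ⟨i, a, mk_eq_rt i a⟩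

theorem of_eq_zero {a : A} : algebraMap A (PH p A) a = 0 ↔ IsNilpotent a := mk_eq_zero

theorem of_injective [IsReduced A] : Function.Injective (algebraMap A (PH p A)) :=
  (injective_iff_map_eq_zero _).2 fun _ h => (of_eq_zero.1 h).eq_zero

/-- the universal property -/
def lift [Pf p L] (f : A →+* L) : PH p A →+* L :=
  Ring.DirectLimit.lift (fun _ : ℕ => A) (fun i j h => tr p A i j h) L
    (fun i => (rt p L ^ i).comp f) fun i j h x => pow_pp_inj j (by
      obtain ⟨d, rfl⟩ := Nat.exists_eq_add_of_le h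
      rw [RingHom.comp_apply, RingHom.comp_apply, rt_pow_pp, tr_apply, Nat.add_sub_cancel_left,
        map_pow, pow_add, pow_mul, rt_pow_pp])

theorem lift_mk [Pf p L] (f : A →+* L) (i : ℕ) (a : A) :
    lift f (mk p i a) = (rt p L ^ i) (f a) :=
  Ring.DirectLimit.lift_of (G := fun _ : ℕ => A) (f := fun i j h => tr p A i j h) L
    (fun i => (rt p L ^ i).comp f) _ i a

@[simp] theorem lift_of [Pf p L] (f : A →+* L) (a : A) :
    lift f (algebraMap A (PH p A) a) = f a := lift_mk f 0 a

theorem hom_ext [Pf p L] {f g : PH p A →+* L}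
    (h : ∀ a, f (algebraMap A _ a) = g (algebraMap A _ a)) : f = g :=
  RingHom.ext fun x => by
    obtain ⟨k, a, e⟩ := exists_pow x
    exact pow_pp_inj k (by rw [← map_pow, ← map_pow, e, h])

theorem lift_comp [Pf p L] (f : A →+* L) : (lift f).comp (algebraMap A (PH p A)) = f :=
  RingHom.ext (lift_of f)

theorem lift_injective [Pf p L] {f : A →+* L} (h : ∀ a, f a = 0 → IsNilpotent a) :
    Function.Injective (lift f) :=
  (injective_iff_map_eq_zero _).2 fun x hx => by
    obtain ⟨k, a, e⟩ := exists_pow x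
    refine eq_zero_of_pow (e.trans (of_eq_zero.2 (h a ?_)))
    rw [← lift_of f, ← e, map_pow, hx, zero_pow (pow_ne_zero _ hp.out.ne_zero)]

theorem lift_surjective [Pf p L] {f : A →+* L} (h : ∀ y, ∃ (k : ℕ) (a : A), y ^ p ^ k = f a) :
    Function.Surjective (lift f) := fun y => by
  obtain ⟨k, a, e⟩ := h y
  exact ⟨mk p k a, by rw [lift_mk, ← e, rt_pow_pp']⟩

/-- the universal property for algebras -/
def liftA [Algebra k A] [Algebra k L] [Pf p L] (f : A →ₐ[k] L) : PH p A →ₐ[k] L :=
  { lift (f : A →+* L) with commutes' := fun c => (lift_of (f : A →+* L) _).trans (f.commutes c) }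

theorem liftA_apply [Algebra k A] [Algebra k L] [Pf p L] (f : A →ₐ[k] L) (x : PH p A) :
    liftA f x = lift (f : A →+* L) x := rfl

@[simp] theorem liftA_of [Algebra k A] [Algebra k L] [Pf p L] (f : A →ₐ[k] L) (a : A) :
    liftA f (algebraMap A (PH p A) a) = f a := lift_of (f : A →+* L) a

theorem homA_ext [Algebra k A] [Algebra k L] [Pf p L] {f g : PH p A →ₐ[k] L}
    (h : ∀ a, f (algebraMap A _ a) = g (algebraMap A _ a)) : f = g :=
  AlgHom.coe_ringHom_injective (hom_ext h)

/-- functoriality -/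
def map [Ch p B] (f : A →+* B) : PH p A →+* PH p B := lift ((algebraMap B (PH p B)).comp f)

@[simp] theorem map_of [Ch p B] (f : A →+* B) (a : A) :
    map f (algebraMap A (PH p A) a) = algebraMap B (PH p B) (f a) := lift_of _ a

@[simp] theorem map_id : map (RingHom.id A) = RingHom.id (PH p A) := hom_ext fun a => map_of _ a

theorem map_comp [Ch p B] [Ch p C] (g : B →+* C) (f : A →+* B) :
    map (g.comp f) = (map g).comp (map (p := p) f) :=
  hom_ext fun a => by rw [RingHom.comp_apply, map_of, map_of, map_of, RingHom.comp_apply]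

theorem map_map [Ch p B] [Ch p C] (g : B →+* C) (f : A →+* B) (x : PH p A) :
    map g (map f x) = map (g.comp f) x := by rw [map_comp, RingHom.comp_apply]

/-- functoriality for algebras -/
def mapA [Ch p B] [Algebra k A] [Algebra k B] (f : A →ₐ[k] B) : PH p A →ₐ[k] PH p B :=
  liftA ((IsScalarTower.toAlgHom k B (PH p B)).comp f)

theorem mapA_apply [Ch p B] [Algebra k A] [Algebra k B] (f : A →ₐ[k] B) (x : PH p A) :
    mapA f x = map (f : A →+* B) x := rfl

@[simp] theorem mapA_of [Ch p B] [Algebra k A] [Algebra k B] (f : A →ₐ[k] B) (a : A) :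
    mapA f (algebraMap A (PH p A) a) = algebraMap B (PH p B) (f a) := liftA_of _ a

theorem regular (w : A) (h : ∀ a, w * a = 0 → a = 0) (x : PH p A)
    (hx : algebraMap A (PH p A) w * x = 0) : x = 0 := by
  obtain ⟨k, a, e⟩ := exists_pow x
  have h1 : IsNilpotent (w ^ p ^ k * a) := by
    rw [← of_eq_zero (p := p), map_mul, map_pow, ← e, ← mul_pow, hx,
      zero_pow (pow_ne_zero _ hp.out.ne_zero)]
  obtain ⟨N, hN⟩ := h1
  have h2 : ∀ (j : ℕ) (b : A), w ^ j * b = 0 → b = 0 := fun j => by
    induction j with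
    | zero => simp
    | succ j ih => exact fun b hb => ih b (h _ (by rw [← mul_assoc, ← pow_succ', hb]))
  rw [mul_pow, ← pow_mul] at hN
  exact eq_zero_of_pow (e.trans (of_eq_zero.2 ⟨N, h2 _ _ hN⟩))

end

theorem bijective [Pf p A] : Function.Bijective (algebraMap A (PH p A)) :=
  Function.bijective_iff_has_inverse.2 ⟨lift (RingHom.id A), lift_of _,
    DFunLike.congr_fun (hom_ext (f := (algebraMap A (PH p A)).comp (lift (RingHom.id A)))
      (g := RingHom.id _) fun a => by rw [RingHom.comp_apply, lift_of]; rfl)⟩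

end PH

/-! ### tensor products and quotients -/

section

variable {A B C : Type*} [CommRing A] [CommRing B] [CommRing C]

omit hp in
instance Ch.tensor [Algebra B A] [Algebra B C] [Ch p A] : Ch p (A ⊗[B] C) :=
  Ch.of_hom Algebra.TensorProduct.includeLeftRingHom

theorem rt_smul [Algebra B A] [Pf p B] [Pf p A] (b : B) (a : A) :
    rt p A (b • a) = rt p B b • rt p A a := by
  rw [Algebra.smul_def, Algebra.smul_def, map_mul, map_rt]

instance Pf.tensor [Algebra B A] [Algebra B C] [Pf p B] [Pf p A] [Pf p C] :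
    Pf p (TensorProduct B A C) where
  bij := by
    let g : A ⊗[B] C →+ A ⊗[B] C := TensorProduct.liftAddHom
      (AddMonoidHom.mk' (fun a => AddMonoidHom.mk' (fun c => rt p A a ⊗ₜ[B] rt p C c)
        fun c c' => by rw [map_add, TensorProduct.tmul_add])
        fun a a' => AddMonoidHom.ext fun c => by
          simp only [map_add, TensorProduct.add_tmul, AddMonoidHom.mk'_apply,
            AddMonoidHom.add_apply])
      fun b a c => by simp only [AddMonoidHom.mk'_apply, rt_smul, TensorProduct.smul_tmul]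
    have hg : ∀ a c, g (a ⊗ₜ c) = rt p A a ⊗ₜ[B] rt p C c := fun _ _ => rfl
    refine Function.bijective_iff_has_inverse.2 ⟨g, fun x => ?_, fun x => ?_⟩
    · change g (fr p _ x) = x
      induction x with
      | zero => simp only [map_zero]
      | tmul a c => rw [fr_apply, Algebra.TensorProduct.tmul_pow, hg, rt_pow', rt_pow']
      | add x y hx hy => rw [map_add, map_add, hx, hy]
    · change fr p _ (g x) = x
      induction x with
      | zero => simp only [map_zero]
      | tmul a c => rw [hg, fr_apply, Algebra.TensorProduct.tmul_pow, rt_pow, rt_pow]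
      | add x y hx hy => rw [map_add, map_add, hx, hy]

theorem rt_tmul [Algebra B A] [Algebra B C] [Pf p B] [Pf p A] [Pf p C] (a : A) (c : C) :
    rt p (A ⊗[B] C) (a ⊗ₜ c) = rt p A a ⊗ₜ rt p C c :=
  pow_p_inj (by rw [rt_pow, Algebra.TensorProduct.tmul_pow, rt_pow, rt_pow])

theorem Pf.quot_radical [Pf p A] (I : Ideal A) : Pf p (A ⧸ I.radical) :=
  Pf.quotient _ fun _ h => Ideal.mem_radical_of_pow_mem h

/-- the ideal generated by all the roots of the elements of `S` -/
def rtI [Pf p A] (S : Set A) : Ideal A :=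
  Ideal.span {x | ∃ (k : ℕ), ∃ s ∈ S, (rt p A ^ k) s = x}

theorem rt_mem_rtI [Pf p A] {S : Set A} {s : A} (h : s ∈ S) (k : ℕ) : (rt p A ^ k) s ∈ rtI S :=
  Ideal.subset_span ⟨k, s, h, rfl⟩

theorem rtI_eq_radical [Pf p A] (S : Set A) : rtI S = (Ideal.span S).radical := by
  refine le_antisymm (Ideal.span_le.2 ?_) ?_
  · rintro _ ⟨k, s, hs, rfl⟩
    exact ⟨p ^ k, by rw [rt_pow_pp]; exact Ideal.subset_span hs⟩
  · rintro x ⟨N, hx⟩
    have h1 := Ideal.mem_map_of_mem (rt p A ^ N)
      (Ideal.pow_mem_of_pow_mem _ hx (Nat.lt_pow_self (one_lt_p (p := p))).le)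
    rw [rt_pow_pp', Ideal.map_span] at h1
    exact Ideal.span_mono (by rintro _ ⟨s, hs, rfl⟩; exact ⟨N, s, hs, rfl⟩) h1

theorem Pf.quot_rtI [Pf p A] (S : Set A) : Pf p (A ⧸ rtI S) := by
  rw [rtI_eq_radical]
  exact Pf.quot_radical _

end

/-! ### perfect polynomial rings -/

omit hp in
instance Ch.mvPolynomial {k : Type*} [CommRing k] [Ch p k] {σ : Type*} :
    Ch p (MvPolynomial σ k) := Ch.of_hom MvPolynomial.C

/-- the perfect hull of the polynomial ring -/
abbrev PPoly (p : ℕ) [Fact p.Prime] (k : Type u) [CommRing k] [Ch p k] (σ : Type v) :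
    Type (max u v) := PH p (MvPolynomial σ k)

namespace PPoly

variable {k : Type u} [CommRing k] [Ch p k] {σ : Type v} {L : Type*} [CommRing L] [Pf p L]

/-- the variables -/
def X (s : σ) : PPoly p k σ := algebraMap (MvPolynomial σ k) _ (MvPolynomial.X s)

/-- the universal property -/
def lift [Algebra k L] (x : σ → L) : PPoly p k σ →ₐ[k] L := PH.liftA (MvPolynomial.aeval x)

theorem lift_of [Algebra k L] (x : σ → L) (f : MvPolynomial σ k) :
    lift x (algebraMap _ (PPoly p k σ) f) = MvPolynomial.aeval x f := PH.liftA_of _ f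

@[simp] theorem lift_X [Algebra k L] (x : σ → L) (s : σ) : lift x (X s : PPoly p k σ) = x s :=
  (lift_of x _).trans (MvPolynomial.aeval_X x s)

theorem ringHom_ext {f g : PPoly p k σ →+* L}
    (h1 : ∀ c, f (algebraMap k _ c) = g (algebraMap k _ c)) (h2 : ∀ s, f (X s) = g (X s)) :
    f = g :=
  PH.hom_ext (DFunLike.congr_fun (MvPolynomial.ringHom_ext
    (f := f.comp (algebraMap (MvPolynomial σ k) _)) (g := g.comp (algebraMap (MvPolynomial σ k) _))
    h1 h2))

theorem hom_ext [Algebra k L] {f g : PPoly p k σ →ₐ[k] L} (h : ∀ s, f (X s) = g (X s)) : f = g :=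
  AlgHom.coe_ringHom_injective
    (ringHom_ext (fun c => (f.commutes c).trans (g.commutes c).symm) h)

end PPoly

end P261
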