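import Vale.Agent.P261Z.W.Pf

/-!
# P261Z, block W: Witt vectors of perfect rings
-/

open WittVector

noncomputable section

namespace P261

variable {p : ℕ} [hp : Fact p.Prime] {K L : Type*} [CommRing K] [CommRing L]

/-- the Teichmueller representative -/
abbrev tm (p : ℕ) [Fact p.Prime] {K : Type*} [CommRing K] (a : K) : WittVector p K :=
  teichmuller p a

/-- the map on Witt vectors -/
abbrev wm (p : ℕ) [Fact p.Prime] {K L : Type*} [CommRing K] [CommRing L] (f : K →+* L) :
    WittVector p K →+* WittVector p L := WittVector.map f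

theorem wm_comp {M : Type*} [CommRing M] (g : L →+* M) (f : K →+* L) (x : WittVector p K) :
    wm p g (wm p f x) = wm p (g.comp f) x := rfl

theorem wm_congr {f g : K →+* L} (h : ∀ a, f a = g a) (x : WittVector p K) :
    wm p f x = wm p g x := by
  rw [RingHom.ext h]

/-! ### multiplication by a Teichmueller representative -/

private theorem tm_aux {R : Type*} (a : MvPolynomial R ℚ) (x : WittVector p (MvPolynomial R ℚ)) :
    tm p a * x = mk p fun j => a ^ p ^ j * x.coeff j := by
  apply (ghostMap.bijective_of_invertible p (MvPolynomial R ℚ)).1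
  rw [map_mul]
  ext1 n
  simp only [Pi.mul_apply, ghostMap_apply, ghostComponent_teichmuller]
  simp only [ghostComponent_apply, aeval_wittPolynomial, Finset.mul_sum, coeff_mk]
  refine Finset.sum_congr rfl fun i hi => ?_
  rw [mul_pow, ← pow_mul, ← pow_add, Nat.add_sub_cancel' (Finset.mem_range_succ_iff.1 hi)]
  ring

theorem coeff_tm_mul (a : K) (x : WittVector p K) (j : ℕ) :
    (tm p a * x).coeff j = a ^ p ^ j * x.coeff j := by
  let c : MvPolynomial K ℤ →+* K := MvPolynomial.counit K
  have hc : Function.Surjective c := MvPolynomial.counit_surjective K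
  obtain ⟨a, rfl⟩ := hc a
  obtain ⟨x, rfl⟩ := map_surjective (p := p) c hc x
  have h := congrArg (fun y => WittVector.coeff y j)
    (tm_aux (p := p) (MvPolynomial.map (Int.castRingHom ℚ) a)
      (WittVector.map (MvPolynomial.map (Int.castRingHom ℚ)) x))
  simp only [tm, ← map_teichmuller, ← map_mul, map_coeff, coeff_mk, ← map_pow] at h
  have h2 := MvPolynomial.map_injective _ Int.cast_injective h
  rw [tm, ← map_teichmuller, ← map_mul, map_coeff, map_coeff, h2, map_mul, map_pow]

/-! ### congruences -/

/-- the first `J` coefficients agree -/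
def Cg (J : ℕ) (x y : WittVector p K) : Prop := ∀ j < J, x.coeff j = y.coeff j

theorem cg_iff {J : ℕ} {x y : WittVector p K} : Cg J x y ↔ truncate J x = truncate J y :=
  ⟨fun h => TruncatedWittVector.ext fun i => by
    rw [coeff_truncate, coeff_truncate]; exact h i i.2, fun h j hj => by
    have := congrArg (TruncatedWittVector.coeff ⟨j, hj⟩) h
    rwa [coeff_truncate, coeff_truncate] at this⟩

namespace Cg

variable {J : ℕ} {x y z x' y' : WittVector p K}

omit hp [CommRing K] in
theorem refl (x : WittVector p K) : Cg J x x := fun _ _ => rfl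

omit hp [CommRing K] in
theorem symm (h : Cg J x y) : Cg J y x := fun j hj => (h j hj).symm

omit hp [CommRing K] in
theorem trans (h : Cg J x y) (h' : Cg J y z) : Cg J x z := fun j hj => (h j hj).trans (h' j hj)

omit hp [CommRing K] in
theorem mono {J' : ℕ} (h : Cg J x y) (hJ : J' ≤ J) : Cg J' x y :=
  fun j hj => h j (hj.trans_le hJ)

omit hp [CommRing K] in
theorem ext (h : ∀ J, Cg J x y) : x = y := WittVector.ext fun j => h (j + 1) j j.lt_succ_self

theorem add (h : Cg J x y) (h' : Cg J x' y') : Cg J (x + x') (y + y') :=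
  cg_iff.2 (by rw [map_add, map_add, cg_iff.1 h, cg_iff.1 h'])

theorem mul (h : Cg J x y) (h' : Cg J x' y') : Cg J (x * x') (y * y') :=
  cg_iff.2 (by rw [map_mul, map_mul, cg_iff.1 h, cg_iff.1 h'])

theorem neg (h : Cg J x y) : Cg J (-x) (-y) :=
  cg_iff.2 (by rw [map_neg, map_neg, cg_iff.1 h])

theorem sub (h : Cg J x y) (h' : Cg J x' y') : Cg J (x - x') (y - y') :=
  cg_iff.2 (by rw [map_sub, map_sub, cg_iff.1 h, cg_iff.1 h'])

theorem sum {ι : Type*} {s : Finset ι} {f g : ι → WittVector p K} (h : ∀ i ∈ s, Cg J (f i) (g i)) :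
    Cg J (∑ i ∈ s, f i) (∑ i ∈ s, g i) :=
  cg_iff.2 (by rw [map_sum, map_sum]; exact Finset.sum_congr rfl fun i hi => cg_iff.1 (h i hi))

theorem map (f : K →+* L) (h : Cg J x y) : Cg J (wm p f x) (wm p f y) :=
  fun j hj => by rw [map_coeff, map_coeff, h j hj]

theorem iff_sub : Cg J x y ↔ Cg J (x - y) 0 := by
  rw [cg_iff, cg_iff, map_sub, map_zero, sub_eq_zero]

theorem mul_zero (h : Cg J x 0) (y : WittVector p K) : Cg J (y * x) 0 := by
  simpa using (refl y).mul h

end Cg

/-- the limit of a sequence -/
def wlim (s : ℕ → WittVector p K) : WittVector p K := mk p fun j => (s (j + 1)).coeff j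

omit hp [CommRing K] in
theorem cg_of_step {s : ℕ → WittVector p K} (h : ∀ J, Cg J (s (J + 1)) (s J)) {J J' : ℕ}
    (hJ : J ≤ J') : Cg J (s J') (s J) := by
  induction J', hJ using Nat.le_induction with
  | base => exact Cg.refl _
  | succ n hn ih => exact ((h n).mono hn).trans ih

omit hp [CommRing K] in
theorem wlim_cg {s : ℕ → WittVector p K} (h : ∀ J, Cg J (s (J + 1)) (s J)) (J : ℕ) :
    Cg J (wlim s) (s J) := fun j hj =>
  (cg_of_step h (Nat.succ_le_of_lt hj) j j.lt_succ_self).symm

/-! ### characteristic `p` -/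

section ch

variable [Ch p K]

variable (p K) in
/-- the Frobenius `σ` -/
def sg : WittVector p K →+* WittVector p K := wm p (fr p K)

@[simp] theorem coeff_sg (x : WittVector p K) (j : ℕ) : (sg p K x).coeff j = x.coeff j ^ p := rfl

theorem sg_tm (a : K) : sg p K (tm p a) = tm p (a ^ p) := map_teichmuller p _ a

theorem wm_sg [Ch p L] (f : K →+* L) (x : WittVector p K) :
    wm p f (sg p K x) = sg p L (wm p f x) := wm_congr (f := f.comp _) (g := (fr p L).comp f)
  (map_fr f) x

@[simp] theorem coeff_p_mul_zero (x : WittVector p K) : ((p : WittVector p K) * x).coeff 0 = 0 := by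
  rcases subsingleton_or_nontrivial K with h | h
  · exact Subsingleton.elim _ _
  · have : CharP K p := Ch.charP
    rw [mul_comm, mul_charP_coeff_zero]

@[simp] theorem coeff_p_mul_succ (x : WittVector p K) (j : ℕ) :
    ((p : WittVector p K) * x).coeff (j + 1) = x.coeff j ^ p := by
  rcases subsingleton_or_nontrivial K with h | h
  · exact Subsingleton.elim _ _
  · have : CharP K p := Ch.charP
    rw [mul_comm, mul_charP_coeff_succ]

theorem Cg.p_mul {J : ℕ} {x y : WittVector p K} (h : Cg J x y) :
    Cg (J + 1) ((p : WittVector p K) * x) (p * y) := by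
  rintro (_ | j) hj
  · simp
  · simp [h j (by omega)]

theorem cg_pow_mul (J : ℕ) (x : WittVector p K) : Cg J ((p : WittVector p K) ^ J * x) 0 := by
  induction J with
  | zero => exact fun _ h => absurd h (Nat.not_lt_zero _)
  | succ J ih => simpa [pow_succ', mul_assoc] using ih.p_mul

/-- the sum of the series `∑ p ^ j x j` -/
def psum (x : ℕ → WittVector p K) : WittVector p K :=
  wlim fun J => ∑ j ∈ Finset.range J, (p : WittVector p K) ^ j * x j

theorem psum_cg (x : ℕ → WittVector p K) (J : ℕ) :
    Cg J (psum x) (∑ j ∈ Finset.range J, (p : WittVector p K) ^ j * x j) :=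
  wlim_cg (fun J => by
    rw [Finset.sum_range_succ]
    simpa using (Cg.refl _).add (cg_pow_mul J (x J))) J

end ch

/-! ### perfect rings -/

section pf

variable [Pf p K]

variable (p K) in
/-- the inverse `σ⁻¹` of the Frobenius -/
def si : WittVector p K →+* WittVector p K := wm p (rt p K)

@[simp] theorem coeff_si (x : WittVector p K) (j : ℕ) :
    (si p K x).coeff j = rt p K (x.coeff j) := rfl

theorem coeff_si_pow (k : ℕ) (x : WittVector p K) (j : ℕ) :
    ((si p K ^ k) x).coeff j = (rt p K ^ k) (x.coeff j) := by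
  induction k generalizing x with
  | zero => rfl
  | succ k ih => rw [pow_succ, pow_succ, RingHom.mul_def, RingHom.mul_def, RingHom.comp_apply,
      RingHom.comp_apply, ih, coeff_si]

@[simp] theorem sg_si (x : WittVector p K) : sg p K (si p K x) = x := by ext; simp

@[simp] theorem si_sg (x : WittVector p K) : si p K (sg p K x) = x := by ext; simp

theorem sg_si_pow (k : ℕ) (x : WittVector p K) : (sg p K ^ k) ((si p K ^ k) x) = x := by
  induction k generalizing x with
  | zero => rfl
  | succ k ih => rw [pow_succ, pow_succ', RingHom.mul_def, RingHom.mul_def, RingHom.comp_apply,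
      RingHom.comp_apply, sg_si, ih]

theorem si_sg_pow (k : ℕ) (x : WittVector p K) : (si p K ^ k) ((sg p K ^ k) x) = x := by
  induction k generalizing x with
  | zero => rfl
  | succ k ih => rw [pow_succ, pow_succ', RingHom.mul_def, RingHom.mul_def, RingHom.comp_apply,
      RingHom.comp_apply, si_sg, ih]

theorem si_tm (a : K) : si p K (tm p a) = tm p (rt p K a) := map_teichmuller p _ a

theorem wm_si [Pf p L] (f : K →+* L) (x : WittVector p K) :
    wm p f (si p K x) = si p L (wm p f x) := wm_congr (f := f.comp _) (g := (rt p L).comp f)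
  (map_rt f) x

theorem wm_si_pow [Pf p L] (f : K →+* L) (k : ℕ) (x : WittVector p K) :
    wm p f ((si p K ^ k) x) = (si p L ^ k) (wm p f x) := by
  ext j
  rw [map_coeff, coeff_si_pow, coeff_si_pow, map_coeff, map_rt_pow]

theorem Cg.si_pow {J : ℕ} {x y : WittVector p K} (h : Cg J x y) (k : ℕ) :
    Cg J ((si p K ^ k) x) ((si p K ^ k) y) := fun j hj => by
  rw [coeff_si_pow, coeff_si_pow, h j hj]

theorem Cg.of_p_mul {J : ℕ} {x y : WittVector p K}
    (h : Cg (J + 1) ((p : WittVector p K) * x) (p * y)) : Cg J x y := fun j hj =>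
  pow_p_inj (by simpa using h (j + 1) (by omega))

theorem p_mul_inj {x y : WittVector p K} (h : (p : WittVector p K) * x = p * y) : x = y :=
  Cg.ext fun _ => Cg.of_p_mul (h ▸ Cg.refl _)

theorem pow_mul_inj {x y : WittVector p K} (k : ℕ) (h : (p : WittVector p K) ^ k * x = p ^ k * y) :
    x = y := by
  induction k with
  | zero => simpa using h
  | succ k ih => exact ih (p_mul_inj (by rwa [← mul_assoc, ← mul_assoc, ← pow_succ']))

/-- remove the first digit and divide by `p` -/
def dv (x : WittVector p K) : WittVector p K := mk p fun j => rt p K (x.coeff (j + 1))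

@[simp] theorem coeff_dv (x : WittVector p K) (j : ℕ) :
    (dv x).coeff j = rt p K (x.coeff (j + 1)) := rfl

theorem coeff_tm_add (a : K) (y : WittVector p K) (j : ℕ) :
    (tm p a + p * y).coeff j = (tm p a).coeff j + ((p : WittVector p K) * y).coeff j := by
  refine coeff_add_of_disjoint j _ _ fun n => ?_
  cases n with
  | zero => exact Or.inr (coeff_p_mul_zero y)
  | succ n => exact Or.inl (teichmuller_coeff_pos p a _ n.succ_pos)

theorem tm_add_dv (x : WittVector p K) : tm p (x.coeff 0) + p * dv x = x := by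
  ext j
  rw [coeff_tm_add]
  cases j with
  | zero => simp
  | succ j => simp [teichmuller_coeff_pos p _ _ j.succ_pos]

@[simp] theorem dv_tm_add (a : K) (y : WittVector p K) :
    dv (tm p a + (p : WittVector p K) * y) = y := by
  ext j
  simp [coeff_tm_add, teichmuller_coeff_pos p _ _ j.succ_pos]

@[simp] theorem dv_p_mul (y : WittVector p K) : dv ((p : WittVector p K) * y) = y := by
  ext j
  simp

theorem p_mul_dv {x : WittVector p K} (h : x.coeff 0 = 0) : (p : WittVector p K) * dv x = x := by
  simpa [h] using tm_add_dv x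

theorem wm_dv [Pf p L] (f : K →+* L) (x : WittVector p K) : wm p f (dv x) = dv (wm p f x) := by
  ext j
  simp [map_rt]

theorem Cg.dv {J : ℕ} {x y : WittVector p K} (h : Cg (J + 1) x y) : Cg J (dv x) (dv y) :=
  fun j hj => by rw [coeff_dv, coeff_dv, h (j + 1) (by omega)]

theorem cg_zero_iff {J : ℕ} {x : WittVector p K} :
    Cg J x 0 ↔ ∃ y, x = (p : WittVector p K) ^ J * y := by
  refine ⟨fun h => ?_, fun ⟨y, hy⟩ => hy ▸ cg_pow_mul J y⟩
  induction J generalizing x with
  | zero => exact ⟨x, by simp⟩
  | succ J ih =>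
    obtain ⟨y, hy⟩ := ih (x := dv x) fun j hj => by simp [h (j + 1) (by omega)]
    exact ⟨y, by rw [pow_succ', mul_assoc, ← hy, p_mul_dv (by simpa using h 0 J.succ_pos)]⟩

/-- the Teichmueller digits -/
def dg (x : WittVector p K) (j : ℕ) : K := (rt p K ^ j) (x.coeff j)

/-- the Witt vector with given digits -/
def ofDg (a : ℕ → K) : WittVector p K := mk p fun j => a j ^ p ^ j

@[simp] theorem dg_ofDg (a : ℕ → K) (j : ℕ) : dg (ofDg a : WittVector p K) j = a j :=
  rt_pow_pp' j _

@[simp] theorem ofDg_dg (x : WittVector p K) : ofDg (dg x) = x := by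
  ext j
  exact rt_pow_pp j _

theorem dg_pow (x : WittVector p K) (j : ℕ) : dg x j ^ p ^ j = x.coeff j := rt_pow_pp j _

theorem dg_dv (x : WittVector p K) (j : ℕ) : dg (dv x) j = dg x (j + 1) := by
  rw [dg, dg, coeff_dv, pow_succ, RingHom.mul_def, RingHom.comp_apply]

theorem dg_wm [Pf p L] (f : K →+* L) (x : WittVector p K) (j : ℕ) :
    dg (wm p f x) j = f (dg x j) := by
  rw [dg, dg, map_coeff, map_rt_pow]

theorem eq_sum_dg (x : WittVector p K) (J : ℕ) :
    x = ∑ j ∈ Finset.range J, (p : WittVector p K) ^ j * tm p (dg x j) + p ^ J * dv^[J] x := by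
  induction J generalizing x with
  | zero => simp
  | succ J ih =>
    conv_lhs => rw [← tm_add_dv x, ih (dv x)]
    rw [Finset.sum_range_succ', Function.iterate_succ_apply, mul_add, Finset.mul_sum]
    simp only [dg_dv, pow_succ', mul_assoc, pow_zero, one_mul]
    show tm p (dg x 0) + _ = _
    ring

theorem psum_tm (a : ℕ → K) : psum (fun j => tm p (a j)) = ofDg a := by
  refine Cg.ext fun J => (psum_cg _ J).trans ?_
  conv_rhs => rw [eq_sum_dg (ofDg a) J]
  simpa using (Cg.refl _).add (cg_pow_mul J (dv^[J] (ofDg a : WittVector p K))).symm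

/-- a Witt vector is a unit when its first digit is -/
theorem isUnit_of_coeff {x : WittVector p K} (h : IsUnit (x.coeff 0)) : IsUnit x := by
  obtain ⟨u, hu⟩ := h
  set y := -(tm p (↑u⁻¹ : K) * dv x) with hy
  have h1 : tm p (↑u⁻¹ : K) * x = 1 - p * y := by
    conv_lhs => rw [← tm_add_dv x, mul_add, ← map_mul, ← hu, u.inv_mul, map_one]
    rw [hy]; ring
  refine isUnit_of_mul_isUnit_right (x := tm p (↑u⁻¹ : K)) ?_
  rw [h1]
  refine IsUnit.of_mul_eq_one (psum fun j => y ^ j) (Cg.ext fun J => ?_)
  refine ((Cg.refl _).mul (psum_cg _ J)).trans ?_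
  simp only [← mul_pow]
  rw [mul_neg_geom_sum, mul_pow]
  simpa using (Cg.refl (1 : WittVector p K)).sub (cg_pow_mul J (y ^ J))

omit [Pf p K] in
theorem isUnit_coeff {x : WittVector p K} (h : IsUnit x) : IsUnit (x.coeff 0) :=
  h.map (constantCoeff : WittVector p K →+* K)

variable (p K) in
/-- the operator `D = σ⁻ʰ - p` -/
def Dop (h : ℕ) : WittVector p K →+ WittVector p K :=
  (si p K ^ h).toAddMonoidHom - AddMonoidHom.mulLeft (p : WittVector p K)

theorem Dop_apply (h : ℕ) (x : WittVector p K) : Dop p K h x = (si p K ^ h) x - p * x := rfl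

theorem wm_Dop [Pf p L] (f : K →+* L) (h : ℕ) (x : WittVector p K) :
    wm p f (Dop p K h x) = Dop p L h (wm p f x) := by
  rw [Dop_apply, Dop_apply, map_sub, map_mul, map_natCast, wm_si_pow]

theorem Dop_pow_mul (h k : ℕ) (x : WittVector p K) :
    Dop p K h ((p : WittVector p K) ^ k * x) = p ^ k * Dop p K h x := by
  rw [Dop_apply, Dop_apply, map_mul, map_pow, map_natCast]
  ring

theorem Cg.Dop {J : ℕ} {x y : WittVector p K} (hx : Cg J x y) (h : ℕ) :
    Cg J (Dop p K h x) (Dop p K h y) := (hx.si_pow h).sub ((Cg.refl _).mul hx)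

theorem Dop_bijective (h : ℕ) : Function.Bijective (Dop p K h) := by
  refine ⟨(injective_iff_map_eq_zero _).2 fun x hx => Cg.ext fun J => ?_, fun y => ?_⟩
  · rw [Dop_apply, sub_eq_zero] at hx
    induction J with
    | zero => exact fun _ h => absurd h (Nat.not_lt_zero _)
    | succ J ih =>
      intro j hj
      have h1 := ih.p_mul j hj
      rw [← hx, coeff_si_pow, mul_zero] at h1
      rw [← rt_pow_pp h (x.coeff j), h1, zero_coeff, zero_pow (pow_ne_zero _ hp.out.ne_zero)]
  · let s : ℕ → WittVector p K := fun j => (sg p K ^ h)^[j + 1] y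
    refine ⟨psum s, Cg.ext fun J => ((psum_cg s J).Dop h).trans ?_⟩
    have h1 : ∀ J, Dop p K h (∑ j ∈ Finset.range J, (p : WittVector p K) ^ j * s j) =
        y - p ^ J * (sg p K ^ h)^[J] y := by
      intro J
      induction J with
      | zero => simp
      | succ J ih =>
        rw [Finset.sum_range_succ, map_add, ih, Dop_pow_mul, Dop_apply]
        simp only [s, Function.iterate_succ_apply', si_sg_pow]
        ring
    rw [h1]
    simpa using (Cg.refl y).sub (cg_pow_mul J _)

/-- the move `ρ` -/
def rho (h : ℕ) (x : WittVector p K) : WittVector p K := tm p (x.coeff 0) + (si p K ^ h) (dv x)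

theorem rho_eq (h : ℕ) (x : WittVector p K) : rho h x = x + Dop p K h (dv x) := by
  rw [rho, Dop_apply]
  linear_combination tm_add_dv x

theorem wm_rho [Pf p L] (f : K →+* L) (h : ℕ) (x : WittVector p K) :
    wm p f (rho h x) = rho h (wm p f x) := by
  rw [rho_eq, rho_eq, map_add, wm_Dop, wm_dv]

end pf

end P261
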