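import Mathlib

/-!
# P261Z, block W: rings of characteristic `p` and perfect rings; the zero ring is allowed
-/

noncomputable section

namespace P261

/-- `p` vanishes in `K` -/
class Ch (p : outParam ℕ) (K : Type*) [CommRing K] : Prop where
  char : (p : K) = 0

/-- perfect rings in which `p` vanishes -/
class Pf (p : outParam ℕ) (K : Type*) [CommRing K] : Prop extends Ch p K where
  bij : Function.Bijective fun x : K => x ^ p

variable {p : ℕ} [hp : Fact p.Prime] {K L : Type*} [CommRing K] [CommRing L]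

theorem Ch.charP [Ch p K] [Nontrivial K] : CharP K p :=
  (CharP.charP_iff_prime_eq_zero hp.out).2 Ch.char

omit hp in
theorem Ch.of_charP [CharP K p] : Ch p K := ⟨CharP.cast_eq_zero K p⟩

omit hp in
theorem Ch.of_hom (f : K →+* L) [Ch p K] : Ch p L :=
  ⟨by rw [← map_natCast f p, Ch.char, map_zero]⟩

omit hp in
theorem Ch.of_inj (f : K →+* L) (hf : Function.Injective f) [Ch p L] : Ch p K :=
  ⟨hf (by rw [map_natCast, Ch.char, map_zero])⟩

omit hp in
theorem Pf.perfectRing [Pf p K] : PerfectRing K p := ⟨Pf.bij⟩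

omit hp in
theorem Pf.of_charP [CharP K p] [PerfectRing K p] : Pf p K :=
  { char := CharP.cast_eq_zero K p, bij := PerfectRing.bijective_frobenius }

omit hp in
theorem Pf.of_equiv (e : K ≃+* L) [Pf p K] : Pf p L :=
  { char := (Ch.of_hom (p := p) e.toRingHom).char
    bij := by
      have : (fun x : L => x ^ p) = e ∘ (fun x : K => x ^ p) ∘ e.symm := by
        ext x; simp
      rw [this]
      exact e.bijective.comp (Pf.bij.comp e.symm.bijective) }

theorem p_pos : 0 < p := hp.out.pos

theorem one_lt_p : 1 < p := hp.out.one_lt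

theorem p_pos' : (0 : ℝ) < p := by exact_mod_cast hp.out.pos

theorem two_le_p : (2 : ℝ) ≤ p := by exact_mod_cast hp.out.two_le

section ch

variable [Ch p K]

theorem add_pow_p (x y : K) : (x + y) ^ p = x ^ p + y ^ p := by
  rcases subsingleton_or_nontrivial K with h | h
  · exact Subsingleton.elim _ _
  · have : CharP K p := Ch.charP
    exact add_pow_char x y p

variable (p K) in
/-- the Frobenius -/
def fr : K →+* K where
  toFun x := x ^ p
  map_one' := one_pow p
  map_mul' x y := mul_pow x y p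
  map_zero' := zero_pow hp.out.ne_zero
  map_add' := add_pow_p

theorem fr_apply (x : K) : fr p K x = x ^ p := rfl

theorem fr_pow_apply (k : ℕ) (x : K) : (fr p K ^ k) x = x ^ p ^ k := by
  induction k generalizing x with
  | zero => simp
  | succ k ih => rw [pow_succ, RingHom.mul_def, RingHom.comp_apply, ih, fr_apply, ← pow_mul,
      pow_succ']

theorem add_pow_pp (x y : K) (k : ℕ) : (x + y) ^ p ^ k = x ^ p ^ k + y ^ p ^ k := by
  simp only [← fr_pow_apply, map_add]

theorem neg_pow_pp (x : K) (k : ℕ) : (-x) ^ p ^ k = -x ^ p ^ k := by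
  simp only [← fr_pow_apply, map_neg]

theorem sub_pow_pp (x y : K) (k : ℕ) : (x - y) ^ p ^ k = x ^ p ^ k - y ^ p ^ k := by
  simp only [← fr_pow_apply, map_sub]

theorem sum_pow_pp {ι : Type*} (s : Finset ι) (x : ι → K) (k : ℕ) :
    (∑ i ∈ s, x i) ^ p ^ k = ∑ i ∈ s, x i ^ p ^ k := by
  simp only [← fr_pow_apply, map_sum]

theorem map_fr [Ch p L] (f : K →+* L) (x : K) : f (fr p K x) = fr p L (f x) := map_pow f x p

end ch

section pf

variable [Pf p K]

variable (p K) in
/-- the Frobenius as an automorphism -/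
def frE : K ≃+* K := RingEquiv.ofBijective (fr p K) Pf.bij

variable (p K) in
/-- the `p`-th root -/
def rt : K →+* K := (frE p K).symm.toRingHom

@[simp] theorem rt_pow (x : K) : rt p K x ^ p = x := (frE p K).apply_symm_apply x

@[simp] theorem rt_pow' (x : K) : rt p K (x ^ p) = x := (frE p K).symm_apply_apply x

@[simp] theorem fr_rt (x : K) : fr p K (rt p K x) = x := rt_pow x

@[simp] theorem rt_fr (x : K) : rt p K (fr p K x) = x := rt_pow' x

omit hp in
theorem pow_p_inj {x y : K} (h : x ^ p = y ^ p) : x = y := Pf.bij.1 h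

omit hp in
theorem pow_pp_inj {x y : K} (k : ℕ) (h : x ^ p ^ k = y ^ p ^ k) : x = y := by
  induction k with
  | zero => simpa using h
  | succ k ih => exact ih (pow_p_inj (by rwa [← pow_mul, ← pow_mul, ← pow_succ]))

theorem rt_pow_pp (k : ℕ) (x : K) : (rt p K ^ k) x ^ p ^ k = x := by
  induction k generalizing x with
  | zero => simp
  | succ k ih => rw [pow_succ', RingHom.mul_def, RingHom.comp_apply, pow_succ', pow_mul, rt_pow,
      ih]

theorem rt_pow_pp' (k : ℕ) (x : K) : (rt p K ^ k) (x ^ p ^ k) = x :=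
  pow_pp_inj k (rt_pow_pp k _)

theorem map_rt [Pf p L] (f : K →+* L) (x : K) : f (rt p K x) = rt p L (f x) :=
  pow_p_inj (by rw [← map_pow, rt_pow, rt_pow])

theorem map_rt_pow [Pf p L] (f : K →+* L) (k : ℕ) (x : K) :
    f ((rt p K ^ k) x) = (rt p L ^ k) (f x) :=
  pow_pp_inj k (by rw [← map_pow, rt_pow_pp, rt_pow_pp])

include hp in
theorem eq_zero_of_pow {x : K} {N : ℕ} (h : x ^ N = 0) : x = 0 := by
  refine pow_pp_inj N ?_
  obtain ⟨d, hd⟩ := Nat.exists_eq_add_of_le (Nat.lt_pow_self (n := N) (one_lt_p (p := p))).le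
  rw [hd, pow_add, h, zero_mul, ← hd, zero_pow (pow_ne_zero _ hp.out.ne_zero)]

include hp in
theorem Pf.isReduced : IsReduced K := ⟨fun _ ⟨_, h⟩ => eq_zero_of_pow h⟩

include hp in
/-- torsion is killed by the first power, hence by all roots -/
theorem mul_eq_zero_of_pow {g x : K} {N : ℕ} (h : g ^ N * x = 0) : g * x = 0 := by
  refine eq_zero_of_pow (N := N + 1) ?_
  rw [mul_pow, show g ^ (N + 1) * x ^ (N + 1) = g * x ^ N * (g ^ N * x) by ring, h, mul_zero]

theorem rt_mul_eq_zero {g x : K} {N : ℕ} (h : g ^ N * x = 0) (k : ℕ) : (rt p K ^ k) g * x = 0 :=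
  mul_eq_zero_of_pow (N := p ^ k * N) (by rw [pow_mul, rt_pow_pp, h])

end pf

instance : Pf p (ZMod p) := Pf.of_charP

instance [Ch p K] [Ch p L] : Ch p (K × L) := ⟨Prod.ext Ch.char Ch.char⟩

instance [Pf p K] [Pf p L] : Pf p (K × L) :=
  { bij := (Pf.bij (K := K)).prodMap (Pf.bij (K := L)) }

instance {ι : Type*} {A : ι → Type*} [∀ i, CommRing (A i)] [∀ i, Ch p (A i)] : Ch p (∀ i, A i) :=
  ⟨funext fun _ => Ch.char⟩

instance {ι : Type*} {A : ι → Type*} [∀ i, CommRing (A i)] [∀ i, Pf p (A i)] : Pf p (∀ i, A i) :=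
  { bij := Function.Bijective.piMap fun i => Pf.bij (K := A i) }

instance [Ch p K] (S : Subring K) : Ch p S := Ch.of_inj S.subtype Subtype.val_injective

instance [Ch p K] (I : Ideal K) : Ch p (K ⧸ I) := Ch.of_hom (Ideal.Quotient.mk I)

/-- subrings which are closed under roots -/
theorem Pf.subring [Pf p K] (S : Subring K) (h : ∀ x ∈ S, rt p K x ∈ S) : Pf p S :=
  { bij := ⟨fun _ _ h => Subtype.ext (pow_p_inj (congrArg Subtype.val h)),
      fun x => ⟨⟨_, h _ x.2⟩, Subtype.ext (rt_pow (x : K))⟩⟩ }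

/-- quotients by ideals which are closed under roots -/
theorem Pf.quotient [Pf p K] (I : Ideal K) (h : ∀ x, x ^ p ∈ I → x ∈ I) : Pf p (K ⧸ I) :=
  { bij := ⟨fun x y hxy => by
      obtain ⟨x, rfl⟩ := Ideal.Quotient.mk_surjective x
      obtain ⟨y, rfl⟩ := Ideal.Quotient.mk_surjective y
      refine Ideal.Quotient.eq.2 (h _ ?_)
      have := sub_pow_pp x y 1
      rw [pow_one] at this
      rw [this, ← Ideal.Quotient.eq, map_pow, map_pow]
      exact hxy, fun x => by
      obtain ⟨x, rfl⟩ := Ideal.Quotient.mk_surjective x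
      exact ⟨Ideal.Quotient.mk I (rt p K x), by
        show Ideal.Quotient.mk I (rt p K x) ^ p = _
        rw [← map_pow, rt_pow]⟩⟩ }

/-- localisations -/
theorem Pf.loc [Pf p K] (S : Submonoid K) (L : Type*) [CommRing L] [Algebra K L]
    [IsLocalization S L] : Pf p L :=
  haveI : Ch p L := Ch.of_hom (algebraMap K L)
  { bij := ⟨fun x y hxy => by
      have h1 : (x - y) ^ p = 0 := by
        have := sub_pow_pp x y 1
        rw [pow_one] at this
        rw [this]
        exact sub_eq_zero.2 hxy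
      obtain ⟨⟨a, s⟩, h2⟩ := IsLocalization.mk'_surjective S (x - y)
      rw [← sub_eq_zero, ← h2]
      rw [← h2, ← IsLocalization.mk'_pow, IsLocalization.mk'_eq_zero_iff] at h1
      obtain ⟨m, hm⟩ := h1
      refine (IsLocalization.mk'_eq_zero_iff _ _).2 ⟨m, eq_zero_of_pow (N := p) ?_⟩
      obtain ⟨d, hd⟩ : ∃ d, p = d + 1 := ⟨p - 1, (Nat.sub_add_cancel hp.out.pos).symm⟩
      rw [mul_pow, show (m : K) ^ p = m ^ d * m by rw [hd, pow_succ], mul_assoc, hm, mul_zero],
      fun x => by
      obtain ⟨⟨a, s⟩, rfl⟩ := IsLocalization.mk'_surjective S x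
      refine ⟨IsLocalization.mk' L (rt p K (a * s ^ (p - 1))) s, ?_⟩
      show IsLocalization.mk' L _ s ^ p = IsLocalization.mk' L a s
      rw [← IsLocalization.mk'_pow, rt_pow, IsLocalization.mk'_eq_iff_eq]
      congr 1
      obtain ⟨d, hd⟩ : ∃ d, p = d + 1 := ⟨p - 1, (Nat.sub_add_cancel hp.out.pos).symm⟩
      rw [SubmonoidClass.coe_pow, hd, Nat.add_sub_cancel]
      ring⟩ }

end P261
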