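import Vale.Agent.P261Z.W.Witt

/-!
# P261Z, block W: filtered rings and the induced filtrations of the Witt vectors
-/

open WittVector

noncomputable section

namespace P261

/-- a multiplicative filtration which is closed under `p`-th roots (weights or poles) -/
structure Fil (p : ℕ) (K : Type*) [CommRing K] where
  /-- the elements of weight at most `t` -/
  F : ℝ → AddSubgroup K
  mono : Monotone F
  one_mem : 1 ∈ F 0
  mul_mem : ∀ {s t : ℝ} {x y : K}, x ∈ F s → y ∈ F t → x * y ∈ F (s + t)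
  root : ∀ {t : ℝ} {x : K}, x ^ p ∈ F (p * t) → x ∈ F t

variable {p : ℕ} {K L : Type*} [CommRing K] [CommRing L]

namespace Fil

variable (F : Fil p K)

/-- every element has a weight -/
def Exh : Prop := ∀ x : K, ∃ t, x ∈ F.F t

/-- the ring of the elements of weight zero -/
def zero : Subring K :=
  { F.F 0 with
    one_mem' := F.one_mem
    mul_mem' := fun hx hy => by simpa using F.mul_mem hx hy }

theorem mem_zero {x : K} : x ∈ F.zero ↔ x ∈ F.F 0 := Iff.rfl

variable {F} {s t : ℝ} {x y : K}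

theorem le (h : x ∈ F.F s) (hs : s ≤ t) : x ∈ F.F t := F.mono hs h

theorem mul_le {u : ℝ} (hx : x ∈ F.F s) (hy : y ∈ F.F t) (h : s + t ≤ u) : x * y ∈ F.F u :=
  le (F.mul_mem hx hy) h

theorem pow_mem (h : x ∈ F.F t) (k : ℕ) : x ^ k ∈ F.F (k * t) := by
  induction k with
  | zero => simpa using F.one_mem
  | succ k ih => rw [pow_succ]; exact mul_le ih h (by push_cast; linarith)

theorem prod_mem {ι : Type*} {S : Finset ι} {a : ι → K} {τ : ι → ℝ} (h : ∀ i ∈ S, a i ∈ F.F (τ i)) :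
    ∏ i ∈ S, a i ∈ F.F (∑ i ∈ S, τ i) := by
  classical
  induction S using Finset.induction with
  | empty => simpa using F.one_mem
  | insert i S hi ih =>
    rw [Finset.prod_insert hi, Finset.sum_insert hi]
    exact F.mul_mem (h i (Finset.mem_insert_self _ _))
      (ih fun j hj => h j (Finset.mem_insert_of_mem hj))

theorem root_pow (k : ℕ) (h : x ^ p ^ k ∈ F.F (p ^ k * t)) : x ∈ F.F t := by
  induction k with
  | zero => simpa using h
  | succ k ih =>
    refine ih (F.root ?_)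
    rwa [← pow_mul, ← pow_succ, ← mul_assoc, ← pow_succ']

theorem pow_pow_iff (k : ℕ) : x ^ p ^ k ∈ F.F (p ^ k * t) ↔ x ∈ F.F t :=
  ⟨root_pow k, fun h => by simpa using pow_mem h (p ^ k)⟩

theorem Exh.finite (h : F.Exh) {ι : Type*} [Finite ι] (a : ι → K) :
    ∃ t, 0 ≤ t ∧ ∀ i, a i ∈ F.F t := by
  choose τ hτ using h
  obtain ⟨t, ht⟩ := (Set.finite_range fun i => τ (a i)).bddAbove
  exact ⟨max t 0, le_max_right _ _, fun i =>
    le (hτ _) ((ht ⟨i, rfl⟩).trans (le_max_left _ _))⟩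

variable (F) in
/-- the filtration up to an arbitrarily small loss -/
def cl (hp : 0 < p) : Fil p K where
  F t :=
    { carrier := {x | ∀ ε > 0, x ∈ F.F (t + ε)}
      add_mem' := fun hx hy ε hε => add_mem (hx ε hε) (hy ε hε)
      zero_mem' := fun _ _ => zero_mem _
      neg_mem' := fun hx ε hε => neg_mem (hx ε hε) }
  mono := fun _ _ h _ hx ε hε => le (hx ε hε) (by linarith)
  one_mem := fun ε hε => le F.one_mem (by linarith)
  mul_mem := fun hx hy ε hε =>
    mul_le (hx (ε / 2) (by linarith)) (hy (ε / 2) (by linarith)) (by linarith)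
  root := fun h ε hε => F.root (by
    rw [mul_add]
    exact h _ (mul_pos (by exact_mod_cast hp) hε))

theorem mem_cl {hp : 0 < p} : x ∈ (F.cl hp).F t ↔ ∀ ε > 0, x ∈ F.F (t + ε) := Iff.rfl

theorem le_cl {hp : 0 < p} (h : x ∈ F.F t) : x ∈ (F.cl hp).F t :=
  fun _ hε => le h (by linarith)

theorem of_cl {hp : 0 < p} (h : x ∈ (F.cl hp).F s) (hs : s < t) : x ∈ F.F t :=
  le (h (t - s) (by linarith)) (by linarith)

variable (F) in
/-- no loss is needed -/
def Closed : Prop := ∀ t x, (∀ ε > 0, x ∈ F.F (t + ε)) → x ∈ F.F t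

theorem closed_cl (hp : 0 < p) : (F.cl hp).Closed := fun _ _ h ε hε =>
  le (h (ε / 2) (by linarith) (ε / 2) (by linarith)) (by linarith)

theorem Exh.cl (h : F.Exh) (hp : 0 < p) : (F.cl hp).Exh := fun x =>
  (h x).imp fun _ hx => le_cl hx

variable (F) in
/-- the preimage of a filtration -/
def comap (f : L →+* K) : Fil p L where
  F t := (F.F t).comap f.toAddMonoidHom
  mono := fun _ _ h _ hx => le (F := F) hx h
  one_mem := by
    show f 1 ∈ F.F 0
    rw [map_one]; exact F.one_mem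
  mul_mem := fun {s t x y} hx hy => by
    show f (x * y) ∈ F.F (s + t)
    rw [map_mul]; exact F.mul_mem hx hy
  root := fun {t x} h => by
    have h1 : f (x ^ p) ∈ F.F (p * t) := h
    rw [map_pow] at h1
    exact F.root h1

variable (F) in
/-- rescaled weights -/
def scale (c : ℝ) (hc : 0 ≤ c) : Fil p K where
  F t := F.F (c * t)
  mono := fun _ _ h => F.mono (mul_le_mul_of_nonneg_left h hc)
  one_mem := by simpa using F.one_mem
  mul_mem := fun hx hy => mul_le hx hy (by rw [mul_add])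
  root := fun h => F.root (by rwa [mul_left_comm])

/-- `f` preserves the weights -/
def Maps (f : K →+* L) (F : Fil p K) (G : Fil p L) : Prop := ∀ t x, x ∈ F.F t → f x ∈ G.F t

/-! ### the Rees ring -/

open AddMonoidAlgebra in
variable (F) in
/-- the Rees ring -/
def rees : Subring (AddMonoidAlgebra K ℝ) :=
  { AddSubgroup.closure {f | ∃ t, ∃ a ∈ F.F t, f = single t a} with
    one_mem' := AddSubgroup.subset_closure ⟨0, 1, F.one_mem, rfl⟩
    mul_mem' := fun {f g} hf hg => by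
      refine AddSubgroup.closure_induction₂ (p := fun f g _ _ => f * g ∈
        AddSubgroup.closure {f | ∃ t, ∃ a ∈ F.F t, f = single t a}) ?_ ?_ ?_ ?_ ?_ ?_ ?_ hf hg
      · rintro _ _ ⟨s, a, ha, rfl⟩ ⟨t, b, hb, rfl⟩
        exact AddSubgroup.subset_closure ⟨_, _, F.mul_mem ha hb, single_mul_single _ _ _ _⟩
      · intro x _; rw [zero_mul]; exact zero_mem _
      · intro x _; rw [mul_zero]; exact zero_mem _
      · intro x y z _ _ _ h1 h2; rw [add_mul]; exact add_mem h1 h2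
      · intro x y z _ _ _ h1 h2; rw [mul_add]; exact add_mem h1 h2
      · intro x y _ _ h; rw [neg_mul]; exact neg_mem h
      · intro x y _ _ h; rw [mul_neg]; exact neg_mem h }

theorem coeff_rees {f : AddMonoidAlgebra K ℝ} (hf : f ∈ F.rees) (t : ℝ) : f.coeff t ∈ F.F t := by
  refine AddSubgroup.closure_induction (p := fun f _ => f.coeff t ∈ F.F t) ?_ ?_ ?_ ?_ hf
  · rintro _ ⟨s, a, ha, rfl⟩
    classical
    rw [AddMonoidAlgebra.coeff_single, Finsupp.single_apply]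
    split_ifs with h
    exacts [h ▸ ha, zero_mem _]
  · exact zero_mem _
  · exact fun _ _ _ _ h1 h2 => add_mem h1 h2
  · exact fun _ _ h => neg_mem h

theorem single_mem_rees : AddMonoidAlgebra.single t x ∈ F.rees ↔ x ∈ F.F t :=
  ⟨fun h => by simpa using coeff_rees h t, fun h => AddSubgroup.subset_closure ⟨t, x, h, rfl⟩⟩

end Fil

variable [hp : Fact p.Prime]

/-- the Witt vectors with coefficients in a subring -/
def wsub (S : Subring K) : Subring (WittVector p K) := (wm p S.subtype).range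

theorem mem_wsub {S : Subring K} {x : WittVector p K} : x ∈ wsub S ↔ ∀ j, x.coeff j ∈ S :=
  ⟨fun ⟨y, hy⟩ j => hy ▸ (y.coeff j).2, fun h => ⟨mk p fun j => ⟨_, h j⟩, rfl⟩⟩

namespace Fil

variable {F : Fil p K}

theorem rees_iff {t : ℝ} {x : WittVector p K} :
    tm p (AddMonoidAlgebra.single t 1) * wm p AddMonoidAlgebra.singleZeroRingHom x ∈
      wsub F.rees ↔ ∀ j, x.coeff j ∈ F.F (p ^ j * t) := by
  rw [mem_wsub]
  refine forall_congr' fun j => ?_
  rw [coeff_tm_mul, map_coeff, AddMonoidAlgebra.single_pow, one_pow]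
  show AddMonoidAlgebra.single _ _ * AddMonoidAlgebra.single 0 _ ∈ _ ↔ _
  rw [AddMonoidAlgebra.single_mul_single, add_zero, one_mul, single_mem_rees, nsmul_eq_mul,
    Nat.cast_pow]

omit hp in
private theorem init_mem {J : ℕ} {t : ℝ} {x : WittVector p K}
    (h : ∀ j < J, x.coeff j ∈ F.F (p ^ j * t)) (j : ℕ) : (init J x).coeff j ∈ F.F (p ^ j * t) := by
  have e : (init J x).coeff j = if j < J then x.coeff j else 0 := by simp [init, select]
  rw [e]
  split_ifs with hj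
  exacts [h j hj, zero_mem _]

omit hp in
private theorem cg_init (J : ℕ) (x : WittVector p K) : Cg J x (init J x) :=
  fun j hj => by simp [init, select, hj]

variable (F) in
/-- the first `J` digits have weight at most `t` -/
def WT (J : ℕ) (t : ℝ) : AddSubgroup (WittVector p K) where
  carrier := {x | ∀ j < J, x.coeff j ∈ F.F (p ^ j * t)}
  zero_mem' := fun j _ => by rw [zero_coeff]; exact zero_mem _
  add_mem' := fun {x y} hx hy j hj => by
    rw [((cg_init J x).add (cg_init J y)) j hj]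
    refine rees_iff.1 ?_ j
    rw [map_add, mul_add]
    exact add_mem (rees_iff.2 (init_mem hx)) (rees_iff.2 (init_mem hy))
  neg_mem' := fun {x} hx j hj => by
    rw [(cg_init J x).neg j hj]
    refine rees_iff.1 ?_ j
    rw [map_neg, mul_neg]
    exact neg_mem (rees_iff.2 (init_mem hx))

variable {J : ℕ} {s t : ℝ} {x y : WittVector p K}

theorem mem_WT : x ∈ F.WT J t ↔ ∀ j < J, x.coeff j ∈ F.F (p ^ j * t) := Iff.rfl

theorem WT_mul (hx : x ∈ F.WT J s) (hy : y ∈ F.WT J t) : x * y ∈ F.WT J (s + t) := fun j hj => by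
  rw [((cg_init J x).mul (cg_init J y)) j hj]
  refine rees_iff.1 ?_ j
  have := Subring.mul_mem _ (rees_iff.2 (init_mem hx)) (rees_iff.2 (init_mem hy))
  rwa [mul_mul_mul_comm, ← map_mul, ← map_mul, AddMonoidAlgebra.single_mul_single, one_mul] at this

theorem WT_le {J' : ℕ} (h : x ∈ F.WT J s) (hJ : J' ≤ J) (hs : s ≤ t) : x ∈ F.WT J' t :=
  fun j hj => le (h j (hj.trans_le hJ)) (mul_le_mul_of_nonneg_left hs (by positivity))

theorem WT_cg (h : x ∈ F.WT J t) (hc : Cg J x y) : y ∈ F.WT J t :=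
  fun j hj => hc j hj ▸ h j hj

theorem WT_of_cg (hc : Cg J x 0) : x ∈ F.WT J t := WT_cg (zero_mem _) hc.symm

theorem WT_tm {a : K} (h : a ∈ F.F t) : tm p a ∈ F.WT J t := by
  rintro (_ | j) _
  · simpa using h
  · rw [teichmuller_coeff_pos p a _ j.succ_pos]; exact zero_mem _

theorem WT_one : (1 : WittVector p K) ∈ F.WT J 0 := by
  rw [← map_one (teichmuller p)]; exact WT_tm F.one_mem

theorem WT_zero (x : WittVector p K) : x ∈ F.WT 0 t := fun _ h => absurd h (Nat.not_lt_zero _)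

theorem WT_map {G : Fil p L} {f : K →+* L} (hf : Maps f F G) (h : x ∈ F.WT J t) :
    wm p f x ∈ G.WT J t := fun j hj => hf _ _ (h j hj)

theorem WT_cl : x ∈ (F.cl hp.out.pos).WT J t ↔ ∀ ε > 0, x ∈ F.WT J (t + ε) := by
  have h0 : ∀ j : ℕ, (0 : ℝ) < p ^ j := fun j => pow_pos p_pos' j
  refine ⟨fun h ε hε j hj => ?_, fun h j hj ε hε => ?_⟩
  · rw [mul_add]
    exact h j hj _ (mul_pos (h0 j) hε)
  · have := h (ε / p ^ j) (div_pos hε (h0 j)) j hj
    rwa [mul_add, mul_div_cancel₀ _ (h0 j).ne'] at this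

theorem Exh.WT (h : F.Exh) (J : ℕ) {ι : Type*} [Finite ι] (x : ι → WittVector p K) :
    ∃ t, 0 ≤ t ∧ ∀ i, x i ∈ F.WT J t := by
  obtain ⟨t, ht, h1⟩ := h.finite fun a : ι × Fin J => (x a.1).coeff a.2
  refine ⟨t, ht, fun i j hj => le (h1 (i, ⟨j, hj⟩)) ?_⟩
  exact le_mul_of_one_le_left ht (one_le_pow₀ (by linarith [two_le_p (p := p)]))

theorem WT_p_mul [Ch p K] (h : x ∈ F.WT J t) : (p : WittVector p K) * x ∈ F.WT (J + 1) t := by
  rintro (_ | j) hj
  · rw [coeff_p_mul_zero]; exact zero_mem _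
  · rw [coeff_p_mul_succ, pow_succ', mul_assoc]
    exact pow_mem (h j (by omega)) p

theorem WT_of_p_mul [Ch p K] (h : (p : WittVector p K) * x ∈ F.WT (J + 1) t) : x ∈ F.WT J t :=
  fun j hj => F.root (by
    have := h (j + 1) (by omega)
    rwa [coeff_p_mul_succ, pow_succ', mul_assoc] at this)

theorem WT_sg [Ch p K] : sg p K x ∈ F.WT J (p * t) ↔ x ∈ F.WT J t := by
  refine forall₂_congr fun j _ => ?_
  rw [coeff_sg, mul_left_comm]
  exact ⟨F.root, fun h => pow_mem h p⟩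

theorem WT_si [Pf p K] (h : x ∈ F.WT J t) : si p K x ∈ F.WT J (t / p) :=
  WT_sg.1 (by rwa [sg_si, mul_div_cancel₀ _ p_pos'.ne'])

theorem WT_si_pow [Pf p K] (h : x ∈ F.WT J t) (k : ℕ) : (si p K ^ k) x ∈ F.WT J (t / p ^ k) := by
  induction k with
  | zero => simpa using h
  | succ k ih =>
    rw [pow_succ' (si p K), RingHom.mul_def, RingHom.comp_apply, pow_succ (p : ℝ), ← div_div]
    exact WT_si ih

theorem WT_dv [Pf p K] (h : x ∈ F.WT (J + 1) t) : dv x ∈ F.WT J t :=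
  fun j hj => F.root (by
    have := h (j + 1) (by omega)
    rwa [coeff_dv, rt_pow, ← mul_assoc, ← pow_succ'])

theorem WT_iff_dg [Pf p K] : x ∈ F.WT J t ↔ ∀ j < J, dg x j ∈ F.F t :=
  forall₂_congr fun j _ => by rw [← dg_pow, pow_pow_iff]

/-! ### weights which depend on the place -/

variable (F) in
/-- modulo `p ^ (J + 1)` the weight is at most `τ J` -/
def WS (τ : ℕ → ℝ) : AddSubgroup (WittVector p K) := ⨅ J, F.WT (J + 1) (τ J)

variable (F) in
/-- all digits have weight at most `t` -/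
abbrev WL (t : ℝ) : AddSubgroup (WittVector p K) := F.WS fun _ => t

variable (F) in
/-- linear growth of the weights of the digits -/
abbrev Wlin (a b : ℝ) : AddSubgroup (WittVector p K) := F.WS fun J => a + b * J

variable {τ τ' : ℕ → ℝ}

theorem mem_WS : x ∈ F.WS τ ↔ ∀ J, x ∈ F.WT (J + 1) (τ J) := AddSubgroup.mem_iInf

theorem mem_WS_of_mono (hτ : Monotone τ) :
    x ∈ F.WS τ ↔ ∀ j, x.coeff j ∈ F.F (p ^ j * τ j) :=
  mem_WS.trans ⟨fun h j => h j j j.lt_succ_self, fun h J j hj =>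
    le (h j) (mul_le_mul_of_nonneg_left (hτ (by omega)) (by positivity))⟩

theorem mem_WL : x ∈ F.WL t ↔ ∀ j, x.coeff j ∈ F.F (p ^ j * t) := mem_WS_of_mono monotone_const

theorem mem_WL' : x ∈ F.WL t ↔ ∀ J, x ∈ F.WT J t :=
  ⟨fun h J => WT_le (mem_WS.1 h J) J.le_succ le_rfl, fun h => mem_WS.2 fun _ => h _⟩

theorem WL_iff_dg [Pf p K] : x ∈ F.WL t ↔ ∀ j, dg x j ∈ F.F t :=
  mem_WL.trans (forall_congr' fun j => by rw [← dg_pow, pow_pow_iff])

theorem WS_le (h : x ∈ F.WS τ) (hτ : ∀ J, τ J ≤ τ' J) : x ∈ F.WS τ' :=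
  mem_WS.2 fun J => WT_le (mem_WS.1 h J) le_rfl (hτ J)

theorem WS_mul (hx : x ∈ F.WS τ) (hy : y ∈ F.WS τ') : x * y ∈ F.WS fun J => τ J + τ' J :=
  mem_WS.2 fun J => WT_mul (mem_WS.1 hx J) (mem_WS.1 hy J)

theorem WL_le (h : x ∈ F.WL s) (hs : s ≤ t) : x ∈ F.WL t := WS_le h fun _ => hs

theorem WL_mul (hx : x ∈ F.WL s) (hy : y ∈ F.WL t) : x * y ∈ F.WL (s + t) := WS_mul hx hy

theorem WS_mul_zero (hx : x ∈ F.WL 0) (hy : y ∈ F.WS τ) : x * y ∈ F.WS τ :=
  WS_le (WS_mul hx hy) fun _ => (zero_add _).le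

theorem WL_tm {a : K} (h : a ∈ F.F t) : tm p a ∈ F.WL t := mem_WS.2 fun _ => WT_tm h

theorem WL_one : (1 : WittVector p K) ∈ F.WL 0 := mem_WS.2 fun _ => WT_one

variable (F) in
/-- the ring of the Witt vectors of weight zero -/
def W0 : Subring (WittVector p K) :=
  { F.WL 0 with
    one_mem' := WL_one
    mul_mem' := fun hx hy => WS_mul_zero hx hy }

theorem mem_W0 : x ∈ F.W0 ↔ x ∈ F.WL 0 := Iff.rfl

theorem WL_natCast (n : ℕ) : (n : WittVector p K) ∈ F.WL 0 := natCast_mem F.W0 n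

theorem WL_intCast (n : ℤ) : (n : WittVector p K) ∈ F.WL 0 := intCast_mem F.W0 n

theorem WL_prod {ι : Type*} {S : Finset ι} {a : ι → WittVector p K} {u : ι → ℝ}
    (h : ∀ i ∈ S, a i ∈ F.WL (u i)) : ∏ i ∈ S, a i ∈ F.WL (∑ i ∈ S, u i) := by
  classical
  induction S using Finset.induction with
  | empty => simpa using WL_one
  | insert i S hi ih =>
    rw [Finset.prod_insert hi, Finset.sum_insert hi]
    exact WL_mul (h i (Finset.mem_insert_self _ _))
      (ih fun j hj => h j (Finset.mem_insert_of_mem hj))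

theorem WS_map {G : Fil p L} {f : K →+* L} (hf : Maps f F G) (h : x ∈ F.WS τ) :
    wm p f x ∈ G.WS τ := mem_WS.2 fun J => WT_map hf (mem_WS.1 h J)

theorem WS_cl : x ∈ (F.cl hp.out.pos).WS τ ↔ ∀ ε > 0, x ∈ F.WS fun J => τ J + ε := by
  simp only [mem_WS, WT_cl]
  exact ⟨fun h ε hε J => h J ε hε, fun h J ε hε => h ε hε J⟩

theorem Closed.WT (hF : F.Closed) (h : ∀ ε > 0, x ∈ F.WT J (t + ε)) : x ∈ F.WT J t :=
  fun j hj => hF _ _ (WT_cl.2 h j hj)

theorem WS_wlim {u : ℕ → WittVector p K} (hc : ∀ J, Cg J (u (J + 1)) (u J))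
    (h : ∀ J, u (J + 1) ∈ F.WT (J + 1) (τ J)) : wlim u ∈ F.WS τ :=
  mem_WS.2 fun J => WT_cg (h J) (wlim_cg hc _).symm

theorem WS_psum [Ch p K] {u : ℕ → WittVector p K} (h : ∀ j, u j ∈ F.WS τ) : psum u ∈ F.WS τ :=
  mem_WS.2 fun J => WT_cg (sum_mem fun j _ => mem_WS.1
    (WS_mul_zero (mem_W0.1 (F.W0.pow_mem (natCast_mem F.W0 p) j)) (h j)) J) (psum_cg u _).symm

theorem WS_si_pow [Pf p K] (h : x ∈ F.WS τ) (k : ℕ) :
    (si p K ^ k) x ∈ F.WS fun J => τ J / p ^ k := mem_WS.2 fun J => WT_si_pow (mem_WS.1 h J) k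

theorem WS_si [Pf p K] (h : x ∈ F.WS τ) : si p K x ∈ F.WS fun J => τ J / p :=
  mem_WS.2 fun J => WT_si (mem_WS.1 h J)

theorem WS_dv [Pf p K] (h : x ∈ F.WS τ) : dv x ∈ F.WS fun J => τ (J + 1) :=
  mem_WS.2 fun J => WT_dv (mem_WS.1 h (J + 1))

theorem WS_of_p_mul [Ch p K] (h : (p : WittVector p K) * x ∈ F.WS τ) :
    x ∈ F.WS fun J => τ (J + 1) := mem_WS.2 fun J => WT_of_p_mul (mem_WS.1 h (J + 1))

theorem WL_p_mul [Ch p K] : (p : WittVector p K) * x ∈ F.WL t ↔ x ∈ F.WL t :=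
  ⟨WS_of_p_mul, WS_mul_zero (WL_natCast p)⟩

theorem WL_sg [Ch p K] : sg p K x ∈ F.WL (p * t) ↔ x ∈ F.WL t := by
  simp only [mem_WL', WT_sg]

theorem WL_rho [Pf p K] (h : ℕ) (h0 : x.coeff 0 ∈ F.F s) (hx : x ∈ F.WL t) :
    rho h x ∈ F.WL (max s (t / p ^ h)) :=
  add_mem (WL_tm (le h0 (le_max_left _ _))) (WL_le (WS_si_pow (WS_dv hx) h) (le_max_right _ _))

theorem WL_Dop [Pf p K] (h : ℕ) (ht : 0 ≤ t) (hx : x ∈ F.WL t) : Dop p K h x ∈ F.WL t :=
  sub_mem (WL_le (WS_si_pow hx h)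
    (div_le_self ht (one_le_pow₀ (by linarith [two_le_p (p := p)])))) (WL_p_mul.2 hx)

end Fil

end P261
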